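import Mathlib.Tactic

/-!
P052, `b(4) ≤ 8`: the inequalities for the pieces.

Coordinates: `a` along the midpoint of the two contact points, `b` along their difference,
`u`, `v` orthogonal; the contact points are `(M, ± S, 0, 0)`, `Q = M² + S²` is the squared radius.
-/

namespace Vale.Agent.P052.H846

/-- Two points of a cap. -/
theorem cap_pair {a b u v a' b' u' v' Q h : ℝ} (h0 : 0 ≤ h)
    (hn : a ^ 2 + b ^ 2 + u ^ 2 + v ^ 2 ≤ Q) (hn' : a' ^ 2 + b' ^ 2 + u' ^ 2 + v' ^ 2 ≤ Q)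
    (ha : h ≤ a) (ha' : h ≤ a') :
    (a - a') ^ 2 + (b - b') ^ 2 + (u - u') ^ 2 + (v - v') ^ 2 ≤ 4 * Q - 4 * h ^ 2 := by
  have h1 : (2 * h) ^ 2 ≤ (a + a') ^ 2 := by
    apply pow_le_pow_left₀ (by linarith)
    linarith
  nlinarith [sq_nonneg (b + b'), sq_nonneg (u + u'), sq_nonneg (v + v')]

/-- Two points of a tip. -/
theorem tip_pair {a b u v a' b' u' v' M S Q t y : ℝ} (hM : 0 ≤ M) (hS : 0 ≤ S) (ht : 0 ≤ t)
    (hy : 0 ≤ y) (hyM : y ≤ M) (hr : 2 * S * t = 1 - 2 * Q + 2 * y * M)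
    (hn : a ^ 2 + b ^ 2 + u ^ 2 + v ^ 2 ≤ Q) (hn' : a' ^ 2 + b' ^ 2 + u' ^ 2 + v' ^ 2 ≤ Q)
    (hl : a ^ 2 + b ^ 2 + u ^ 2 + v ^ 2 ≤ 1 - Q + 2 * a * M - 2 * S * b)
    (hl' : a' ^ 2 + b' ^ 2 + u' ^ 2 + v' ^ 2 ≤ 1 - Q + 2 * a' * M - 2 * S * b')
    (hb : t ≤ b) (hb' : t ≤ b') :
    (a - a') ^ 2 + (b - b') ^ 2 + (u - u') ^ 2 + (v - v') ^ 2 ≤ 4 * (Q - y ^ 2 - t ^ 2) := by
  have h0 : (a - a') ^ 2 + (b - b') ^ 2 + (u - u') ^ 2 + (v - v') ^ 2 ≤
      2 * (a ^ 2 + b ^ 2 + u ^ 2 + v ^ 2) + 2 * (a' ^ 2 + b' ^ 2 + u' ^ 2 + v' ^ 2)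
        - (a + a') ^ 2 - (b + b') ^ 2 := by
    nlinarith [sq_nonneg (u + u'), sq_nonneg (v + v')]
  have hB : (2 * t) ^ 2 ≤ (b + b') ^ 2 := pow_le_pow_left₀ (by linarith) (by linarith) 2
  rcases le_or_gt (2 * y) (a + a') with hA | hA
  · have hA2 : (2 * y) ^ 2 ≤ (a + a') ^ 2 := pow_le_pow_left₀ (by linarith) hA 2
    nlinarith
  · have h1 : (a + a' - 2 * y) * (4 * M - (a + a') - 2 * y) ≤ 0 :=
      mul_nonpos_of_nonpos_of_nonneg (by linarith) (by linarith)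
    have h2 : 0 ≤ (b + b' - 2 * t) * (4 * S + (b + b') + 2 * t) :=
      mul_nonneg (by linarith) (by linarith)
    nlinarith

/-- The main estimate, one of the two first coordinates nonnegative. -/
theorem quad_aux {a B n a' B' n' M S Q t y β h δ : ℝ} (hM : 0 < M) (hS : 0 < S) (hQ : 0 ≤ 1 - 2 * Q)
    (ht0 : 0 ≤ t) (htS : t ≤ S) (hy : 0 ≤ y) (hβ : 2 * S * β = 1 - 2 * Q)
    (hr : S * t = S * β + y * M) (hhM : h ≤ M)
    (h1 : δ * M ≤ (M - h) * (1 - 2 * Q)) (h2 : 2 * Q + 2 * t * β ≤ 1 - δ)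
    (h3 : 2 * Q + 2 * t ^ 2 - 2 * y ^ 2 ≤ 1 - δ)
    (hn : n ≤ Q) (hl : n ≤ 1 - Q + 2 * a * M - 2 * S * B)
    (hn' : n' ≤ Q) (hl' : n' ≤ 1 - Q + 2 * a' * M - 2 * S * B')
    (ha' : a' ≤ h) (hB0 : 0 ≤ B) (hB : B ≤ t) (hB0' : 0 ≤ B') (hB' : B' ≤ t) (ha0 : 0 ≤ a') :
    n + n' - 2 * a * a' + 2 * B * B' ≤ 1 - δ := by
  -- combination of the two bounds for `n`
  have e1 : M * n ≤ (M - a') * Q + a' * (1 - Q + 2 * a * M - 2 * S * B) := by
    have e2 : (M - a') * n ≤ (M - a') * Q := mul_le_mul_of_nonneg_left hn (by linarith)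
    have e3 : a' * n ≤ a' * (1 - Q + 2 * a * M - 2 * S * B) := mul_le_mul_of_nonneg_left hl ha0
    nlinarith
  have e4 : M * (n - 2 * a * a' + 2 * B * B') ≤ M * Q + a' * (1 - 2 * Q) + 2 * B * (M * B' - S * a') := by
    nlinarith
  rcases le_or_gt (M * B') (S * a') with hc | hc
  · have e5 : 2 * B * (M * B' - S * a') ≤ 0 :=
      mul_nonpos_of_nonneg_of_nonpos (by linarith) (by linarith)
    have e6 : a' * (1 - 2 * Q) ≤ h * (1 - 2 * Q) := mul_le_mul_of_nonneg_right ha' hQ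
    have e7 : M * (n + n' - 2 * a * a' + 2 * B * B') ≤ M * (1 - δ) := by
      have : M * n' ≤ M * Q := mul_le_mul_of_nonneg_left hn' hM.le
      nlinarith
    exact le_of_mul_le_mul_left e7 hM
  · have e5 : 2 * B * (M * B' - S * a') ≤ 2 * t * (M * B' - S * a') :=
      mul_le_mul_of_nonneg_right (by linarith) (by linarith)
    have e6 : n + n' - 2 * a * a' + 2 * B * B' ≤ n' + Q - 2 * a' * y + 2 * t * B' := by
      have e7 : M * (n + n' - 2 * a * a' + 2 * B * B') ≤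
          M * (n' + Q - 2 * a' * y + 2 * t * B') := by
        have e8 : a' * (1 - 2 * Q) - 2 * t * (S * a') = - (2 * a' * y * M) := by
          rw [← hβ]
          have : 2 * a' * (S * t) = 2 * a' * (S * β + y * M) := by rw [hr]
          linarith
        nlinarith
      exact le_of_mul_le_mul_left e7 hM
    rcases le_or_gt y a' with hya | hya
    · have e9 : y * y ≤ a' * y := mul_le_mul_of_nonneg_right hya hy
      have e10 : t * B' ≤ t * t := mul_le_mul_of_nonneg_left hB' ht0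
      nlinarith
    · -- `S (n' + 2 t B') ≤ S Q + t (1 - 2 Q) + 2 t a' M`
      have f1 : (S - t) * n' ≤ (S - t) * Q := mul_le_mul_of_nonneg_left hn' (by linarith)
      have f2 : t * n' ≤ t * (1 - Q + 2 * a' * M - 2 * S * B') :=
        mul_le_mul_of_nonneg_left hl' ht0
      have f3 : S * (n' + 2 * t * B') ≤ S * Q + t * (1 - 2 * Q) + 2 * t * a' * M := by nlinarith
      -- compare at `a' = 0` and `a' = y`
      have f4 : y * (S * (n' + Q - 2 * a' * y + 2 * t * B')) ≤ y * (S * (1 - δ)) := by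
        have g1 : (y - a') * (S * (2 * Q + 2 * t * β)) ≤ (y - a') * (S * (1 - δ)) :=
          mul_le_mul_of_nonneg_left (mul_le_mul_of_nonneg_left h2 hS.le) (by linarith)
        have g2 : a' * (S * (2 * Q + 2 * t ^ 2 - 2 * y ^ 2)) ≤ a' * (S * (1 - δ)) :=
          mul_le_mul_of_nonneg_left (mul_le_mul_of_nonneg_left h3 hS.le) ha0
        have g3 : y * (S * (n' + 2 * t * B')) ≤ y * (S * Q + t * (1 - 2 * Q) + 2 * t * a' * M) :=
          mul_le_mul_of_nonneg_left f3 hy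
        have g4 : 2 * a' * t * (S * t) = 2 * a' * t * (S * β + y * M) := by rw [hr]
        have g5 : t * y * (2 * S * β) = t * y * (1 - 2 * Q) := by rw [hβ]
        nlinarith
      rcases hy.lt_or_eq with hy1 | hy1
      · have f5 := le_of_mul_le_mul_left f4 hy1
        have f6 := le_of_mul_le_mul_left f5 hS
        linarith
      · exfalso
        rw [← hy1] at hya
        linarith

/-- The main estimate, general form. -/
theorem quad_pair {a b u v a' b' u' v' M S Q t y β h δ : ℝ} (hM : 0 < M) (hS : 0 < S)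
    (hQ : 0 ≤ 1 - 2 * Q)
    (ht0 : 0 ≤ t) (htS : t ≤ S) (hy : 0 ≤ y) (hβ : 2 * S * β = 1 - 2 * Q)
    (hr : S * t = S * β + y * M) (hhM : h ≤ M)
    (h1 : δ * M ≤ (M - h) * (1 - 2 * Q)) (h2 : 2 * Q + 2 * t * β ≤ 1 - δ)
    (h3 : 2 * Q + 2 * t ^ 2 - 2 * y ^ 2 ≤ 1 - δ)
    (hn : a ^ 2 + b ^ 2 + u ^ 2 + v ^ 2 ≤ Q)
    (hl : a ^ 2 + b ^ 2 + u ^ 2 + v ^ 2 ≤ 1 - Q + 2 * a * M - 2 * S * |b|)
    (hn' : a' ^ 2 + b' ^ 2 + u' ^ 2 + v' ^ 2 ≤ Q)
    (hl' : a' ^ 2 + b' ^ 2 + u' ^ 2 + v' ^ 2 ≤ 1 - Q + 2 * a' * M - 2 * S * |b'|)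
    (ha : a ≤ h) (ha' : a' ≤ h) (hB : |b| ≤ t) (hB' : |b'| ≤ t)
    (hu : 0 ≤ u * u') (hv : 0 ≤ v * v') :
    (a - a') ^ 2 + (b - b') ^ 2 + (u - u') ^ 2 + (v - v') ^ 2 ≤ 1 - δ := by
  have hbb : -(b * b') ≤ |b| * |b'| := by
    rw [← abs_mul]
    exact neg_le_abs _
  have key : (a ^ 2 + b ^ 2 + u ^ 2 + v ^ 2) + (a' ^ 2 + b' ^ 2 + u' ^ 2 + v' ^ 2) - 2 * a * a' +
      2 * |b| * |b'| ≤ 1 - δ := by
    rcases le_or_gt 0 a' with h0 | h0
    · exact quad_aux hM hS hQ ht0 htS hy hβ hr hhM h1 h2 h3 hn hl hn' hl' ha' (abs_nonneg _) hB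
        (abs_nonneg _) hB' h0
    · rcases le_or_gt 0 a with h00 | h00
      · have := quad_aux (a := a') (a' := a) hM hS hQ ht0 htS hy hβ hr hhM h1 h2 h3 hn' hl' hn hl ha
          (abs_nonneg _) hB' (abs_nonneg _) hB h00
        linarith
      · -- both negative
        have c1 : 0 ≤ a * a' := (mul_pos_of_neg_of_neg h00 h0).le
        have c2 : |b| * |b'| ≤ t * |b'| := mul_le_mul_of_nonneg_right hB (abs_nonneg _)
        have c3 : a' * M ≤ 0 := mul_nonpos_of_nonpos_of_nonneg h0.le hM.le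
        set n' := a' ^ 2 + b' ^ 2 + u' ^ 2 + v' ^ 2 with hn'def
        have f1 : (S - t) * n' ≤ (S - t) * Q := mul_le_mul_of_nonneg_left hn' (by linarith)
        have f2 : t * n' ≤ t * (1 - Q + 2 * a' * M - 2 * S * |b'|) :=
          mul_le_mul_of_nonneg_left hl' ht0
        have f2' : t * (2 * a' * M) ≤ 0 := mul_nonpos_of_nonneg_of_nonpos ht0 (by linarith)
        have f3 : S * (n' + 2 * t * |b'|) ≤ S * (Q + 2 * t * β) := by
          have g5 : t * (2 * S * β) = t * (1 - 2 * Q) := by rw [hβ]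
          nlinarith
        have f4 := le_of_mul_le_mul_left f3 hS
        nlinarith
  nlinarith

end Vale.Agent.P052.H846
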