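import Vale.Agent.P052.H846.Alg
import Mathlib.Analysis.SpecialFunctions.Pow.Real

/-!
P052, `b(4) ≤ 8`: the remaining inequalities (front pieces, the fan of the tesseract) and the choice
of the parameters.
-/

namespace Vale.Agent.P052.H846

theorem front_cap {a b u v a' b' u' v' Q h : ℝ} (h0 : 0 ≤ h) (hQ : Q - h ^ 2 ≤ 26 / 100)
    (hn : a ^ 2 + b ^ 2 + u ^ 2 + v ^ 2 ≤ Q) (hn' : a' ^ 2 + b' ^ 2 + u' ^ 2 + v' ^ 2 ≤ Q)
    (ha : h ≤ a) (ha' : h ≤ a') (hb : 1 / 8 ≤ b) (hb' : 1 / 8 ≤ b') :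
    (a - a') ^ 2 + (b - b') ^ 2 + (u - u') ^ 2 + (v - v') ^ 2 ≤ 99 / 100 := by
  have h1 : (2 * h) ^ 2 ≤ (a + a') ^ 2 := pow_le_pow_left₀ (by linarith) (by linarith) 2
  have h2 : (2 * (1 / 8 : ℝ)) ^ 2 ≤ (b + b') ^ 2 :=
    pow_le_pow_left₀ (by norm_num) (by linarith) 2
  nlinarith [sq_nonneg (u + u'), sq_nonneg (v + v')]

/-- Two vectors of one sector: `S1`. -/
theorem sector1 {u v u' v' : ℝ} (h1 : 0 ≤ v) (h2 : 0 ≤ u + v) (h1' : 0 ≤ v') (h2' : 0 ≤ u' + v') :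
    -2 * (u * u' + v * v') ≤ 3 / 4 * (u ^ 2 + v ^ 2) + 2 / 3 * (u' ^ 2 + v' ^ 2) ∨
    -2 * (u * u' + v * v') ≤ 2 / 3 * (u ^ 2 + v ^ 2) + 3 / 4 * (u' ^ 2 + v' ^ 2) := by
  have hv : 0 ≤ v * v' := mul_nonneg h1 h1'
  rcases le_or_gt 0 u with hu | hu
  · left
    rcases le_or_gt 0 u' with hu' | hu'
    · have := mul_nonneg hu hu'
      nlinarith [sq_nonneg u, sq_nonneg v, sq_nonneg u', sq_nonneg v']
    · -- `|u'| ≤ v'`
      have h3 : u' ^ 2 ≤ v' ^ 2 := by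
        have : (-u') ^ 2 ≤ v' ^ 2 := pow_le_pow_left₀ (by linarith) (by linarith) 2
        nlinarith
      nlinarith [sq_nonneg (3 * u + 4 * u'), sq_nonneg v]
  · right
    rcases le_or_gt 0 u' with hu' | hu'
    · have h3 : u ^ 2 ≤ v ^ 2 := by
        have : (-u) ^ 2 ≤ v ^ 2 := pow_le_pow_left₀ (by linarith) (by linarith) 2
        nlinarith
      nlinarith [sq_nonneg (3 * u' + 4 * u), sq_nonneg v']
    · have := mul_pos_of_neg_of_neg hu hu'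
      nlinarith [sq_nonneg u, sq_nonneg v, sq_nonneg u', sq_nonneg v']

theorem sector3 {u v u' v' : ℝ} (h1 : u + v ≤ 0) (h2 : u - v ≤ 0) (h1' : u' + v' ≤ 0)
    (h2' : u' - v' ≤ 0) : 0 ≤ u * u' + v * v' := by
  have e1 : 0 ≤ (-(u + v)) * (-(u' + v')) := mul_nonneg (by linarith) (by linarith)
  have e2 : 0 ≤ (-(u - v)) * (-(u' - v')) := mul_nonneg (by linarith) (by linarith)
  nlinarith

theorem front_aux {b w b' w' r : ℝ} (hr : r ≤ 26 / 100) (hn : b ^ 2 + w ≤ r) (hn' : b' ^ 2 + w' ≤ r)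
    (hb : b ≤ 1 / 8) (hb' : b' ≤ 1 / 8) :
    2 * r - 2 * b * b' + (3 / 4 * w + 2 / 3 * w') ≤ 99 / 100 := by
  rcases le_or_gt 0 (b * b') with h | h
  · nlinarith [sq_nonneg b, sq_nonneg b']
  · rcases le_or_gt 0 b with h0 | h0
    · have hb0 : b' ≤ 0 := by
        by_contra hcon
        push Not at hcon
        nlinarith [mul_nonneg h0 hcon.le]
      have h1 : 0 ≤ (1 / 8 - b) * (-b') := mul_nonneg (by linarith) (by linarith)
      nlinarith [sq_nonneg (b' + 3 / 16), sq_nonneg b]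
    · have hb0 : 0 ≤ b' := by
        by_contra hcon
        push Not at hcon
        nlinarith [mul_pos_of_neg_of_neg h0 hcon]
      have h1 : 0 ≤ (1 / 8 - b') * (-b) := mul_nonneg (by linarith) (by linarith)
      nlinarith [sq_nonneg (b + 1 / 6), sq_nonneg b']

theorem front_lune {a b u v a' b' u' v' Q h : ℝ} (h0 : 0 ≤ h) (hQ : Q - h ^ 2 ≤ 26 / 100)
    (hn : a ^ 2 + b ^ 2 + u ^ 2 + v ^ 2 ≤ Q) (hn' : a' ^ 2 + b' ^ 2 + u' ^ 2 + v' ^ 2 ≤ Q)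
    (ha : h ≤ a) (ha' : h ≤ a') (hb : b ≤ 1 / 8) (hb' : b' ≤ 1 / 8)
    (hs : -2 * (u * u' + v * v') ≤ 3 / 4 * (u ^ 2 + v ^ 2) + 2 / 3 * (u' ^ 2 + v' ^ 2) ∨
      -2 * (u * u' + v * v') ≤ 2 / 3 * (u ^ 2 + v ^ 2) + 3 / 4 * (u' ^ 2 + v' ^ 2)) :
    (a - a') ^ 2 + (b - b') ^ 2 + (u - u') ^ 2 + (v - v') ^ 2 ≤ 99 / 100 := by
  have h1 : h ^ 2 ≤ a ^ 2 := pow_le_pow_left₀ h0 ha 2
  have h1' : h ^ 2 ≤ a' ^ 2 := pow_le_pow_left₀ h0 ha' 2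
  have h2 : h * h ≤ a * a' := mul_le_mul ha ha' h0 (by linarith)
  rcases hs with hs | hs
  · have := front_aux (b := b) (w := u ^ 2 + v ^ 2) (b' := b') (w' := u' ^ 2 + v' ^ 2) hQ
      (by nlinarith) (by nlinarith) hb hb'
    nlinarith
  · have := front_aux (b := b') (w := u' ^ 2 + v' ^ 2) (b' := b) (w' := u ^ 2 + v ^ 2) hQ
      (by nlinarith) (by nlinarith) hb' hb
    nlinarith

/-- The fan of the tesseract. -/
theorem tess {s p q w s' p' q' w' Q : ℝ} (hQ : Q ≤ 31 / 100)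
    (hn : s ^ 2 + p ^ 2 + q ^ 2 + w ^ 2 ≤ Q) (hn' : s' ^ 2 + p' ^ 2 + q' ^ 2 + w' ^ 2 ≤ Q)
    (hp : |p| ≤ s) (hq : |q| ≤ s) (hw : |w| ≤ s) (hp' : |p'| ≤ s') (hq' : |q'| ≤ s')
    (hw' : |w'| ≤ s') :
    (s - s') ^ 2 + (p - p') ^ 2 + (q - q') ^ 2 + (w - w') ^ 2 ≤ 99 / 100 := by
  have hs : 0 ≤ s := (abs_nonneg _).trans hp
  have hs' : 0 ≤ s' := (abs_nonneg _).trans hp'
  have key : ∀ x x' : ℝ, |x| ≤ s → |x'| ≤ s' →
      (x - x') ^ 2 ≤ 3 / 2 * (x ^ 2 + x' ^ 2) + 1 / 4 * (s + s') ^ 2 := by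
    intro x x' hx hx'
    have h1 : |x - x'| ≤ s + s' := (abs_sub _ _).trans (by linarith)
    have h2 : (x - x') ^ 2 ≤ (s + s') ^ 2 := by
      rw [← sq_abs (x - x')]
      exact pow_le_pow_left₀ (abs_nonneg _) h1 2
    nlinarith [sq_nonneg (x + x')]
  have sq : ∀ x : ℝ, ∀ r : ℝ, |x| ≤ r → x ^ 2 ≤ r ^ 2 := by
    intro x r hx
    rw [← sq_abs x]
    exact pow_le_pow_left₀ (abs_nonneg _) hx 2
  have k1 := key p p' hp hp'
  have k2 := key q q' hq hq'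
  have k3 := key w w' hw hw'
  have a1 := sq _ _ hp
  have a2 := sq _ _ hq
  have a3 := sq _ _ hw
  have a1' := sq _ _ hp'
  have a2' := sq _ _ hq'
  have a3' := sq _ _ hw'
  rcases le_total s' s with h | h
  · have h1 : s' * s' ≤ s * s' := mul_le_mul_of_nonneg_right h hs'
    nlinarith [sq_nonneg p, sq_nonneg q, sq_nonneg w, sq_nonneg p', sq_nonneg q', sq_nonneg w']
  · have h1 : s * s ≤ s * s' := mul_le_mul_of_nonneg_left h hs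
    nlinarith [sq_nonneg p, sq_nonneg q, sq_nonneg w, sq_nonneg p', sq_nonneg q', sq_nonneg w']

end Vale.Agent.P052.H846
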