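import Vale.Agent.P052.H846.Cells

/-!
P052, `b(4) ≤ 7`: seven cells without contact points (small radius), and seven cells for two contact
points at distance `1` (middle radius).
-/

namespace Vale.Agent.P052.H846

/-- A cap in a rotated direction. -/
theorem cap_rot {a b u v a' b' u' v' Q k α σ : ℝ} (hα : α ^ 2 + σ ^ 2 = 1) (h0 : 0 ≤ k)
    (hn : a ^ 2 + b ^ 2 + u ^ 2 + v ^ 2 ≤ Q) (hn' : a' ^ 2 + b' ^ 2 + u' ^ 2 + v' ^ 2 ≤ Q)
    (ha : k ≤ α * a + σ * b) (ha' : k ≤ α * a' + σ * b') :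
    (a - a') ^ 2 + (b - b') ^ 2 + (u - u') ^ 2 + (v - v') ^ 2 ≤ 4 * Q - 4 * k ^ 2 := by
  have e1 : ∀ x y : ℝ, (α * x + σ * y) ^ 2 + (-σ * x + α * y) ^ 2 = x ^ 2 + y ^ 2 := by
    intro x y
    have : (α * x + σ * y) ^ 2 + (-σ * x + α * y) ^ 2 = (α ^ 2 + σ ^ 2) * (x ^ 2 + y ^ 2) := by ring
    rw [this, hα, one_mul]
  have h1 := cap_pair (a := α * a + σ * b) (b := -σ * a + α * b) (u := u) (v := v)
    (a' := α * a' + σ * b') (b' := -σ * a' + α * b') (u' := u') (v' := v') (Q := Q) h0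
    (by have := e1 a b; linarith) (by have := e1 a' b'; linarith) ha ha'
  have h2 := e1 (a - a') (b - b')
  have h3 : α * (a - a') + σ * (b - b') = (α * a + σ * b) - (α * a' + σ * b') := by ring
  have h4 : -σ * (a - a') + α * (b - b') = (-σ * a + α * b) - (-σ * a' + α * b') := by ring
  rw [h3, h4] at h2
  linarith

/-- Two points of the triangle. -/
theorem tri_pair {a b a' b' : ℝ} (h1 : -(1 / 4) ≤ a) (h2 : 3 * a + 4 * b ≤ 5 / 4)
    (h3 : 3 * a - 4 * b ≤ 5 / 4) (h1' : -(1 / 4) ≤ a') (h2' : 3 * a' + 4 * b' ≤ 5 / 4)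
    (h3' : 3 * a' - 4 * b' ≤ 5 / 4) : -(3 / 16) ≤ a * a' + b * b' := by
  have l1 : 0 ≤ a + 1 / 4 := by linarith
  have l2 : 0 ≤ 5 / 4 - 3 * a - 4 * b := by linarith
  have l3 : 0 ≤ 5 / 4 - 3 * a + 4 * b := by linarith
  have l1' : 0 ≤ a' + 1 / 4 := by linarith
  have l2' : 0 ≤ 5 / 4 - 3 * a' - 4 * b' := by linarith
  have l3' : 0 ≤ 5 / 4 - 3 * a' + 4 * b' := by linarith
  nlinarith [mul_nonneg l1 l1', mul_nonneg l1 l2', mul_nonneg l1 l3', mul_nonneg l2 l1',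
    mul_nonneg l3 l1', mul_nonneg l2 l2', mul_nonneg l3 l3']

/-- The cells for small radius. -/
def C0 : (Bool × Bool) ⊕ Fin 3 → (Fin 4 → ℝ) → Prop
  | Sum.inl s, y => (-(1 / 4) ≤ y 0 ∧ 3 * y 0 + 4 * y 1 ≤ 5 / 4 ∧ 3 * y 0 - 4 * y 1 ≤ 5 / 4) ∧
      Quad s y
  | Sum.inr 0, y => 5 / 4 ≤ 3 * y 0 + 4 * y 1
  | Sum.inr 1, y => 5 / 4 ≤ 3 * y 0 - 4 * y 1
  | Sum.inr 2, y => y 0 ≤ -(1 / 4)

theorem C0_cover (y : Fin 4 → ℝ) : ∃ i, C0 i y := by
  rcases le_total (5 / 4) (3 * y 0 + 4 * y 1) with h0 | h0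
  · exact ⟨Sum.inr 0, h0⟩
  · rcases le_total (5 / 4) (3 * y 0 - 4 * y 1) with h1 | h1
    · exact ⟨Sum.inr 1, h1⟩
    · rcases le_total (y 0) (-(1 / 4)) with h2 | h2
      · exact ⟨Sum.inr 2, h2⟩
      · obtain ⟨s, hs⟩ := exists_quad y
        exact ⟨Sum.inl s, ⟨h2, h0, h1⟩, hs⟩

theorem C0_pair {y z : Fin 4 → ℝ} (hy : nn y ≤ 31 / 100) (hz : nn z ≤ 31 / 100)
    {i : (Bool × Bool) ⊕ Fin 3} (hyi : C0 i y) (hzi : C0 i z) : dd y z ≤ 1 - 1 / 200 := by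
  unfold nn at hy hz
  unfold dd
  rcases i with s | i
  · obtain ⟨⟨h1, h2, h3⟩, hs⟩ := hyi
    obtain ⟨⟨h1', h2', h3'⟩, hs'⟩ := hzi
    obtain ⟨hu, hv⟩ := quad_mul hs hs'
    have := tri_pair h1 h2 h3 h1' h2' h3'
    nlinarith
  · fin_cases i
    · have := cap_rot (α := 3 / 5) (σ := 4 / 5) (k := 1 / 4) (by norm_num) (by norm_num) hy hz
        (by have : 5 / 4 ≤ 3 * y 0 + 4 * y 1 := hyi
            linarith)
        (by have : 5 / 4 ≤ 3 * z 0 + 4 * z 1 := hzi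
            linarith)
      linarith
    · have := cap_rot (α := 3 / 5) (σ := -(4 / 5)) (k := 1 / 4) (by norm_num) (by norm_num) hy hz
        (by have : 5 / 4 ≤ 3 * y 0 - 4 * y 1 := hyi
            linarith)
        (by have : 5 / 4 ≤ 3 * z 0 - 4 * z 1 := hzi
            linarith)
      linarith
    · have := cap_rot (α := -1) (σ := 0) (k := 1 / 4) (by norm_num) (by norm_num) hy hz
        (by have : y 0 ≤ -(1 / 4) := hyi
            linarith)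
        (by have : z 0 ≤ -(1 / 4) := hzi
            linarith)
      linarith

/-! ### Contact points at distance `1`, middle radius -/

/-- One point: `n + B² ≤ 493/1000`. -/
theorem midA {a B n M : ℝ} (hM1 : 6 / 100 ≤ M ^ 2) (hM2 : M ≤ 3 / 10) (hM0 : 0 < M)
    (hB0 : 0 ≤ B) (hB : B ≤ 1 / 2) (hn : n ≤ M ^ 2 + 1 / 4) (hl : n ≤ 3 / 4 - M ^ 2 + 2 * a * M - B)
    (hc : 4 * a + 3 * B ≤ 5 * (51 / 50 * M)) : n + B ^ 2 ≤ 493 / 1000 := by
  rcases le_or_gt B (39 / 100) with h | h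
  · nlinarith
  · have h1 : a * M ≤ (5 * (51 / 50 * M) - 3 * B) / 4 * M :=
      mul_le_mul_of_nonneg_right (by linarith) hM0.le
    have h2 : 0 ≤ (B - 39 / 100) * (1 / 2 - B) := mul_nonneg (by linarith) (by linarith)
    have h3 : 0 ≤ (B - 39 / 100) * M := mul_nonneg (by linarith) hM0.le
    have h4 : 24 / 100 ≤ M := by nlinarith
    nlinarith

/-- Back point: `n + B² ≤ Q + B*²`. -/
theorem midG {s B n M : ℝ} (hM1 : 6 / 100 ≤ M ^ 2) (hM2 : M ≤ 3 / 10) (hM0 : 0 < M)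
    (hs0 : 0 ≤ s) (hs : s ≤ 51 / 50 * M)
    (hB0 : 0 ≤ B) (hB : B ≤ 1 / 2) (hn : n ≤ M ^ 2 + 1 / 4)
    (hl : n ≤ 3 / 4 - M ^ 2 - 2 * s * M - B) :
    n + B ^ 2 ≤ M ^ 2 + 1 / 4 + (1 / 2 - 2 * M ^ 2 - 2 * (s * M)) ^ 2 := by
  set B0 : ℝ := 1 / 2 - 2 * M ^ 2 - 2 * (s * M) with hB0def
  have e1 : s * M ≤ 51 / 50 * M * M := mul_le_mul_of_nonneg_right hs hM0.le
  have e2 : 0 ≤ s * M := mul_nonneg hs0 hM0.le
  have e3 : 0 ≤ B0 := by rw [hB0def]; nlinarith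
  have e4 : B0 ≤ 1 / 2 := by rw [hB0def]; nlinarith
  rcases le_or_gt B B0 with h | h
  · have := pow_le_pow_left₀ hB0 h 2
    linarith
  · have h1 : 0 ≤ (B - B0) * (1 - B - B0) := mul_nonneg (by linarith) (by linarith)
    have h2 : n ≤ M ^ 2 + 1 / 4 + B0 - B := by rw [hB0def]; linarith
    nlinarith

/-- Front and back, with the products as variables. -/
theorem midB_aux {B n as s B' n' σ m : ℝ} (hm1 : 6 / 100 ≤ m) (hm2 : m ≤ 9 / 100)
    (hσ0 : 0 ≤ σ) (hσ1 : σ ≤ 51 / 50 * m) (hs0 : 0 ≤ s) (hσs : σ ≤ 3 / 10 * s)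
    (hB0 : 0 ≤ B) (hn : n ≤ m + 1 / 4)
    (hA : n + B ^ 2 ≤ 493 / 1000)
    (hG : n' + B' ^ 2 ≤ m + 1 / 4 + (1 / 2 - 2 * m - 2 * σ) ^ 2)
    (has : as ≤ 51 / 40 * σ - 3 / 4 * (B * s)) :
    n + n' + 2 * as + 2 * B * B' ≤ 99 / 100 := by
  have e3 : 2 * B * B' ≤ B ^ 2 + B' ^ 2 := by nlinarith [sq_nonneg (B - B')]
  have q0 : σ * σ ≤ σ * (51 / 50 * m) := mul_le_mul_of_nonneg_left hσ1 hσ0
  have q1 : (1 / 2 - 2 * m - 2 * σ) ^ 2 ≤ 1 / 4 - 2 * m + 4 * (m * m) - σ * (2 - 1208 / 100 * m) := by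
    linarith [show (1 / 2 - 2 * m - 2 * σ) ^ 2 = 1 / 4 - 2 * m + 4 * (m * m) - 2 * σ + 8 * (σ * m) +
      4 * (σ * σ) by ring, show σ * (2 - 1208 / 100 * m) = 2 * σ - 1208 / 100 * (σ * m) by ring,
      show σ * (51 / 50 * m) = 51 / 50 * (σ * m) by ring]
  have q2 : m * m ≤ 9 / 100 * m := mul_le_mul_of_nonneg_right hm2 (by linarith)
  rcases le_or_gt B (39 / 100) with h | h
  · have h5 : B ^ 2 ≤ 39 / 100 * B := by
      have : B * B ≤ 39 / 100 * B := mul_le_mul_of_nonneg_right h hB0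
      linarith [show B ^ 2 = B * B by ring]
    rcases le_or_gt (3 / 2 * s) (39 / 100) with h6 | h6
    · have h7 : (39 / 100 - 3 / 2 * s) * B ≤ (39 / 100 - 3 / 2 * s) * (39 / 100) :=
        mul_le_mul_of_nonneg_left h (by linarith)
      have h9 : σ * (6 / 10) ≤ σ * (2 - 1208 / 100 * m) :=
        mul_le_mul_of_nonneg_left (by linarith) hσ0
      linarith [show (39 / 100 - 3 / 2 * s) * B = 39 / 100 * B - 3 / 2 * (B * s) by ring]
    · have h7 : (39 / 100 - 3 / 2 * s) * B ≤ 0 :=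
        mul_nonpos_of_nonpos_of_nonneg (by linarith) hB0
      have h9 : σ * (2 - 1208 / 100 * (9 / 100)) ≤ σ * (2 - 1208 / 100 * m) :=
        mul_le_mul_of_nonneg_left (by linarith) hσ0
      linarith [show (39 / 100 - 3 / 2 * s) * B = 39 / 100 * B - 3 / 2 * (B * s) by ring]
  · have h7 : 39 / 100 * s ≤ B * s := mul_le_mul_of_nonneg_right h.le hs0
    have h9 : σ * (6 / 10) ≤ σ * (2 - 1208 / 100 * m) :=
      mul_le_mul_of_nonneg_left (by linarith) hσ0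
    linarith

/-- Front and back. -/
theorem midB {a B n s B' n' M : ℝ} (hM1 : 6 / 100 ≤ M ^ 2) (hM2 : M ≤ 3 / 10) (hM0 : 0 < M)
    (hB0 : 0 ≤ B) (hB : B ≤ 1 / 2) (hn : n ≤ M ^ 2 + 1 / 4) (hl : n ≤ 3 / 4 - M ^ 2 + 2 * a * M - B)
    (hc : 4 * a + 3 * B ≤ 5 * (51 / 50 * M))
    (hs0 : 0 ≤ s) (hs : s ≤ 51 / 50 * M)
    (hB0' : 0 ≤ B') (hB' : B' ≤ 1 / 2) (hn' : n' ≤ M ^ 2 + 1 / 4)
    (hl' : n' ≤ 3 / 4 - M ^ 2 - 2 * s * M - B') :
    n + n' + 2 * (a * s) + 2 * B * B' ≤ 99 / 100 := by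
  refine midB_aux (σ := s * M) (m := M ^ 2) hM1 ?_ (mul_nonneg hs0 hM0.le) ?_ hs0 ?_ hB0 hn
    (midA hM1 hM2 hM0 hB0 hB hn hl hc) (midG hM1 hM2 hM0 hs0 hs hB0' hB' hn' hl') ?_
  · have := pow_le_pow_left₀ hM0.le hM2 2
    linarith
  · have : s * M ≤ 51 / 50 * M * M := mul_le_mul_of_nonneg_right hs hM0.le
    linarith
  · have : s * M ≤ s * (3 / 10) := mul_le_mul_of_nonneg_left hM2 hs0
    linarith
  · have : a * s ≤ (5 * (51 / 50 * M) - 3 * B) / 4 * s :=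
      mul_le_mul_of_nonneg_right (by linarith) hs0
    linarith

/-- The cells for contact points at distance `1`, middle radius. -/
def C3 (k : ℝ) : (Bool × Bool) ⊕ Fin 3 → (Fin 4 → ℝ) → Prop
  | Sum.inl s, y => (-k ≤ y 0 ∧ 4 * y 0 + 3 * |y 1| ≤ 5 * k) ∧ Quad s y
  | Sum.inr 0, y => 5 * k ≤ 4 * y 0 + 3 * y 1
  | Sum.inr 1, y => 5 * k ≤ 4 * y 0 - 3 * y 1
  | Sum.inr 2, y => y 0 ≤ -k

theorem C3_cover (k : ℝ) (y : Fin 4 → ℝ) : ∃ i, C3 k i y := by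
  rcases le_total (5 * k) (4 * y 0 + 3 * y 1) with h0 | h0
  · exact ⟨Sum.inr 0, h0⟩
  · rcases le_total (5 * k) (4 * y 0 - 3 * y 1) with h1 | h1
    · exact ⟨Sum.inr 1, h1⟩
    · rcases le_total (y 0) (-k) with h2 | h2
      · exact ⟨Sum.inr 2, h2⟩
      · obtain ⟨s, hs⟩ := exists_quad y
        refine ⟨Sum.inl s, ⟨h2, ?_⟩, hs⟩
        rcases abs_cases (y 1) with ⟨h, _⟩ | ⟨h, _⟩ <;> rw [h] <;> linarith

theorem adm_half {M Q : ℝ} {y : Fin 4 → ℝ} (hQ : Q = M ^ 2 + (1 / 2) ^ 2)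
    (hy : Adm M (1 / 2) Q y) : |y 1| ≤ 1 / 2 := by
  obtain ⟨_, h2⟩ := hy
  unfold nn at h2
  have h3 : |y 1| ^ 2 = y 1 ^ 2 := sq_abs _
  have h4 : (|y 1| + 1 / 2) ^ 2 ≤ 1 ^ 2 := by
    nlinarith [sq_nonneg (y 0 - M), sq_nonneg (y 2), sq_nonneg (y 3)]
  have h5 := abs_le_of_sq_le_sq' h4 (by norm_num)
  linarith [h5.2]

theorem C3_pair {M Q : ℝ} (hM0 : 0 < M) (hQ : Q = M ^ 2 + (1 / 2) ^ 2) (h31 : 31 / 100 ≤ Q)
    (h34 : Q ≤ 34 / 100) {y z : Fin 4 → ℝ} (hy : Adm M (1 / 2) Q y) (hz : Adm M (1 / 2) Q z)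
    {i : (Bool × Bool) ⊕ Fin 3} (hyi : C3 (51 / 50 * M) i y) (hzi : C3 (51 / 50 * M) i z) :
    dd y z ≤ 1 - 1 / 200 := by
  have hM1 : 6 / 100 ≤ M ^ 2 := by linarith
  have hM2 : M ≤ 3 / 10 := by
    apply le_of_sq_le_sq _ (by norm_num)
    linarith
  have hyb := adm_half hQ hy
  have hzb := adm_half hQ hz
  obtain ⟨hy1, hy2⟩ := hy
  obtain ⟨hz1, hz2⟩ := hz
  rcases i with s | i
  · obtain ⟨⟨h1, h2⟩, hs⟩ := hyi
    obtain ⟨⟨h1', h2'⟩, hs'⟩ := hzi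
    obtain ⟨hu, hv⟩ := quad_mul hs hs'
    have hyl : nn y ≤ 3 / 4 - M ^ 2 + 2 * y 0 * M - |y 1| := by linarith
    have hzl : nn z ≤ 3 / 4 - M ^ 2 + 2 * z 0 * M - |z 1| := by linarith
    have hyn : nn y ≤ M ^ 2 + 1 / 4 := by linarith
    have hzn : nn z ≤ M ^ 2 + 1 / 4 := by linarith
    have key : nn y + nn z - 2 * (y 0 * z 0) + 2 * |y 1| * |z 1| ≤ 99 / 100 := by
      rcases le_total 0 (y 0) with ha | ha <;> rcases le_total 0 (z 0) with hb | hb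
      · have k1 := midA hM1 hM2 hM0 (abs_nonneg _) hyb hyn hyl h2
        have k2 := midA hM1 hM2 hM0 (abs_nonneg _) hzb hzn hzl h2'
        have k3 := mul_nonneg ha hb
        nlinarith [sq_nonneg (|y 1| - |z 1|)]
      · have := midB (s := -(z 0)) hM1 hM2 hM0 (abs_nonneg _) hyb hyn hyl h2 (by linarith)
          (by linarith) (abs_nonneg _) hzb hzn (by linarith)
        linarith
      · have := midB (s := -(y 0)) hM1 hM2 hM0 (abs_nonneg _) hzb hzn hzl h2' (by linarith)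
          (by linarith) (abs_nonneg _) hyb hyn (by linarith)
        linarith
      · have k1 := midA hM1 hM2 hM0 (abs_nonneg _) hyb hyn hyl h2
        have k2 := midA hM1 hM2 hM0 (abs_nonneg _) hzb hzn hzl h2'
        have k3 := mul_nonneg_of_nonpos_of_nonpos ha hb
        nlinarith [sq_nonneg (|y 1| - |z 1|)]
    have hbb : -(y 1 * z 1) ≤ |y 1| * |z 1| := by
      rw [← abs_mul]
      exact neg_le_abs _
    unfold nn at key
    unfold dd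
    nlinarith
  · unfold nn at hy1 hz1
    unfold dd
    fin_cases i
    · have := cap_rot (α := 4 / 5) (σ := 3 / 5) (k := 51 / 50 * M) (by norm_num) (by linarith) hy1 hz1
        (by have : 5 * (51 / 50 * M) ≤ 4 * y 0 + 3 * y 1 := hyi
            linarith)
        (by have : 5 * (51 / 50 * M) ≤ 4 * z 0 + 3 * z 1 := hzi
            linarith)
      nlinarith
    · have := cap_rot (α := 4 / 5) (σ := -(3 / 5)) (k := 51 / 50 * M) (by norm_num) (by linarith) hy1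
        hz1
        (by have : 5 * (51 / 50 * M) ≤ 4 * y 0 - 3 * y 1 := hyi
            linarith)
        (by have : 5 * (51 / 50 * M) ≤ 4 * z 0 - 3 * z 1 := hzi
            linarith)
      nlinarith
    · have := cap_rot (α := -1) (σ := 0) (k := 51 / 50 * M) (by norm_num) (by linarith) hy1 hz1
        (by have : y 0 ≤ -(51 / 50 * M) := hyi
            linarith)
        (by have : z 0 ≤ -(51 / 50 * M) := hzi
            linarith)
      nlinarith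

end Vale.Agent.P052.H846
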