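import Vale.Agent.P052.H846.Cells

/-!
P052, `b(4) ≤ 7`: the front part in three lunes about the third contact point.
-/

namespace Vale.Agent.P052.H846

theorem lune_num {w v : ℝ} (hw0 : 0 ≤ w) (hw : w ≤ 9 / 20) (hv0 : 0 ≤ v) (hv : v ≤ 251 / 500) :
    2 * w * v - 3 / 4 * w ^ 2 - 2 / 3 * v ^ 2 ≤ 132 / 1000 := by
  obtain ⟨p, hp⟩ : ∃ p, p = 9 / 20 - w := ⟨_, rfl⟩
  obtain ⟨q, hq⟩ : ∃ q, q = 251 / 500 - v := ⟨_, rfl⟩
  have hp0 : 0 ≤ p := by linarith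
  have hq0 : 0 ≤ q := by linarith
  have ew : w = 9 / 20 - p := by linarith
  have ev : v = 251 / 500 - q := by linarith
  subst ew
  subst ev
  nlinarith [sq_nonneg (7 / 5 * p - q), mul_nonneg hp0 hw0, mul_nonneg hq0 hv0]

theorem lune_num' {w v : ℝ} (hw0 : 0 ≤ w) (hw : w ≤ 9 / 20) (hv0 : 0 ≤ v) (hv : v ≤ 251 / 500) :
    2 * w * v - 2 / 3 * w ^ 2 - 3 / 4 * v ^ 2 ≤ 132 / 1000 := by
  obtain ⟨p, hp⟩ : ∃ p, p = 9 / 20 - w := ⟨_, rfl⟩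
  obtain ⟨q, hq⟩ : ∃ q, q = 251 / 500 - v := ⟨_, rfl⟩
  have hp0 : 0 ≤ p := by linarith
  have hq0 : 0 ≤ q := by linarith
  have ew : w = 9 / 20 - p := by linarith
  have ev : v = 251 / 500 - q := by linarith
  subst ew
  subst ev
  nlinarith [sq_nonneg (7 / 5 * p - q), mul_nonneg hp0 hw0, mul_nonneg hq0 hv0]

theorem front_aux7 {b w b' w' r : ℝ} (hr : r ≤ 252 / 1000) (hn : b ^ 2 + w ≤ r)
    (hn' : b' ^ 2 + w' ≤ r) (hw : 0 ≤ w) (hw' : 0 ≤ w') (hb : -(9 / 20) ≤ b)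
    (hb' : -(9 / 20) ≤ b') :
    2 * r - 2 * b * b' + (3 / 4 * w + 2 / 3 * w') ≤ 996 / 1000 := by
  have hb1 : b ≤ 251 / 500 := by nlinarith
  have hb1' : b' ≤ 251 / 500 := by nlinarith
  rcases le_total 0 b with h | h <;> rcases le_total 0 b' with h' | h'
  · nlinarith [mul_nonneg h h', sq_nonneg b, sq_nonneg b']
  · have := lune_num' (w := -b') (v := b) (by linarith) (by linarith) h hb1
    nlinarith
  · have := lune_num (w := -b) (v := b') (by linarith) (by linarith) h' hb1'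
    nlinarith
  · nlinarith [mul_nonneg_of_nonpos_of_nonpos h h', sq_nonneg b, sq_nonneg b']

theorem front_lune7 {a b u v a' b' u' v' Q h : ℝ} (h0 : 0 ≤ h) (hQ : Q - h ^ 2 ≤ 252 / 1000)
    (hn : a ^ 2 + b ^ 2 + u ^ 2 + v ^ 2 ≤ Q) (hn' : a' ^ 2 + b' ^ 2 + u' ^ 2 + v' ^ 2 ≤ Q)
    (ha : h ≤ a) (ha' : h ≤ a') (hb : -(9 / 20) ≤ b) (hb' : -(9 / 20) ≤ b')
    (hs : -2 * (u * u' + v * v') ≤ 3 / 4 * (u ^ 2 + v ^ 2) + 2 / 3 * (u' ^ 2 + v' ^ 2) ∨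
      -2 * (u * u' + v * v') ≤ 2 / 3 * (u ^ 2 + v ^ 2) + 3 / 4 * (u' ^ 2 + v' ^ 2)) :
    (a - a') ^ 2 + (b - b') ^ 2 + (u - u') ^ 2 + (v - v') ^ 2 ≤ 996 / 1000 := by
  have h1 : h ^ 2 ≤ a ^ 2 := pow_le_pow_left₀ h0 ha 2
  have h1' : h ^ 2 ≤ a' ^ 2 := pow_le_pow_left₀ h0 ha' 2
  have h2 : h * h ≤ a * a' := mul_le_mul ha ha' h0 (by linarith)
  rcases hs with hs | hs
  · have := front_aux7 (b := b) (w := u ^ 2 + v ^ 2) (b' := b') (w' := u' ^ 2 + v' ^ 2) hQ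
      (by nlinarith) (by nlinarith) (by positivity) (by positivity) hb hb'
    nlinarith
  · have := front_aux7 (b := b') (w := u' ^ 2 + v' ^ 2) (b' := b) (w' := u ^ 2 + v ^ 2) hQ
      (by nlinarith) (by nlinarith) (by positivity) (by positivity) hb' hb
    nlinarith

/-- The third contact point keeps the front points away from the opposite pole. -/
theorem third_point {a b n Q M h s c : ℝ} (h34 : 34 / 100 ≤ Q) (hM0 : 0 < M)
    (hM : M ^ 2 = Q - 1 / 4) (hh : h ^ 2 = M ^ 2 - 2 / 1000) (hh0 : 0 ≤ h) (hs : 0 ≤ s)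
    (hc : 0 ≤ c) (hsc : s ^ 2 + c ^ 2 = Q) (hMs : M * s ≤ 1 / 2 - Q) (hn : a ^ 2 + b ^ 2 ≤ n)
    (ha : h ≤ a) (h3 : n + Q + 2 * (a * s) - 2 * (b * c) ≤ 1) : -(9 / 20) ≤ b := by
  by_contra hcon
  push Not at hcon
  have hh29 : 29 / 100 ≤ h := by nlinarith
  have e1 : h ^ 2 ≤ a ^ 2 := pow_le_pow_left₀ hh0 ha 2
  have e2 : (9 / 20) ^ 2 ≤ b ^ 2 := by
    have := pow_le_pow_left₀ (by norm_num) (show (9 / 20 : ℝ) ≤ -b by linarith) 2
    linarith [neg_sq b]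
  have e3 : h * s ≤ a * s := mul_le_mul_of_nonneg_right ha hs
  have e4 : 9 / 20 * c ≤ -b * c := mul_le_mul_of_nonneg_right (by linarith) hc
  -- `h² + w² + Q - 1 + 2 h s + 2 w c > 0`
  have key : 2 * Q - 1 / 4 - 2 / 1000 + 81 / 400 - 1 + 2 * (h * s) + 9 / 10 * c ≤ 0 := by
    linarith
  rcases le_or_gt s (2 / 5) with h1 | h1
  · have f1 : s ^ 2 ≤ (2 / 5) ^ 2 := pow_le_pow_left₀ hs h1 2
    have f2 : 42 / 100 ≤ c := by
      by_contra hc2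
      push Not at hc2
      have := pow_le_pow_left₀ hc hc2.le 2
      linarith
    have f3 : 0 ≤ h * s := mul_nonneg hh0 hs
    linarith
  · have f1 : 29 / 100 * (2 / 5) ≤ h * s := mul_le_mul hh29 h1.le (by norm_num) hh0
    have f2 : 23 / 100 ≤ c := by
      by_contra hc2
      push Not at hc2
      have g1 := pow_le_pow_left₀ hc hc2.le 2
      have g2 : (M * s) ^ 2 ≤ (1 / 2 - Q) ^ 2 := pow_le_pow_left₀ (mul_nonneg hM0.le hs) hMs 2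
      rw [mul_pow, hM] at g2
      have g3 : Q - (23 / 100) ^ 2 ≤ s ^ 2 := by linarith
      have g4 : (Q - 1 / 4) * (Q - (23 / 100) ^ 2) ≤ (Q - 1 / 4) * s ^ 2 :=
        mul_le_mul_of_nonneg_left g3 (by linarith)
      nlinarith
    linarith

end Vale.Agent.P052.H846
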