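import Vale.Agent.P052.H846.Alg3
import Vale.Agent.P052.H846.Alg4

/-!
P052, `b(4) ≤ 7`: the cells.
-/

namespace Vale.Agent.P052.H846

theorem cells1' {M S Q : ℝ} (hM : 0 < M) (hS : 0 < S) (hS2 : S < 1 / 2) (hQ : Q = M ^ 2 + S ^ 2)
    (h31 : 31 / 100 ≤ Q) (h39 : Q ≤ 39 / 100) (hS5 : 5 / 8 * Q ≤ S ^ 2) :
    ∃ δ : ℝ, 0 < δ ∧ ∃ h t : ℝ,
      ∀ i y z, Adm M S Q y → Adm M S Q z → C1 h t i y → C1 h t i z → dd y z ≤ 1 - δ := by
  obtain ⟨β, hβ⟩ : ∃ β : ℝ, 2 * S * β = 1 - 2 * Q := ⟨(1 - 2 * Q) / (2 * S), by field_simp⟩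
  have hβ0 : 0 < β := by
    by_contra hcon
    push Not at hcon
    have : 2 * S * β ≤ 0 := mul_nonpos_of_nonneg_of_nonpos (by linarith) hcon
    linarith
  have hβS : β < S := by
    have h1 : 2 * S * β < 2 * S * S := by rw [hβ]; nlinarith
    exact lt_of_mul_lt_mul_left h1 (by linarith)
  have hβQ : 1 - 2 * Q ≤ β := by
    rw [← hβ]
    nlinarith
  set t : ℝ := (β + S) / 2 with ht
  obtain ⟨y, hy⟩ : ∃ y : ℝ, y * (2 * M) = (S - β) * S := ⟨(S - β) * S / (2 * M), by field_simp⟩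
  have hy0 : 0 < y := by
    by_contra hcon
    push Not at hcon
    have h1 : y * (2 * M) ≤ 0 := mul_nonpos_of_nonpos_of_nonneg hcon (by linarith)
    have h2 : 0 < (S - β) * S := mul_pos (by linarith) hS
    linarith
  have hr : S * t = S * β + y * M := by rw [ht]; linarith
  have hyM : y ≤ M := by
    have h1 : y * (2 * M) ≤ M * (2 * M) := by
      rw [hy]
      nlinarith
    exact le_of_mul_le_mul_right h1 (by linarith)
  have hMS : M ^ 2 < S ^ 2 := by nlinarith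
  -- the choice of `h`
  set q0 : ℝ := max (Q - 1 / 4) 0 with hq0
  have hq1 : Q - 1 / 4 ≤ q0 := le_max_left _ _
  have hq2 : 0 ≤ q0 := le_max_right _ _
  have hq3 : q0 < M ^ 2 := max_lt (by nlinarith) (by positivity)
  set h : ℝ := Real.sqrt ((q0 + M ^ 2) / 2) with hh
  have hhsq : h ^ 2 = (q0 + M ^ 2) / 2 := Real.sq_sqrt (by linarith [sq_nonneg M])
  have hh0 : 0 ≤ h := Real.sqrt_nonneg _
  have hhM : h < M := by
    apply lt_of_pow_lt_pow_left₀ 2 hM.le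
    rw [hhsq]
    linarith
  -- the five slacks
  have s1 : 0 < (M - h) * (1 - 2 * Q) / M := by
    apply div_pos (mul_pos (by linarith) (by linarith)) hM
  have s2 : 0 < 1 - 2 * Q - 2 * t * β := by
    rw [← hβ, ht]
    nlinarith [mul_pos hβ0 (show 0 < S - β by linarith)]
  have s3 : 0 < 1 - 2 * Q - 2 * t ^ 2 + 2 * y ^ 2 := by
    have e1 : 2 * M ^ 2 * (1 - 2 * Q - 2 * t ^ 2 + 2 * y ^ 2) = (S - β) ^ 2 * (S ^ 2 - M ^ 2) := by
      have : 4 * M ^ 2 * y ^ 2 = ((S - β) * S) ^ 2 := by rw [← hy]; ring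
      rw [← hβ, ht]
      linear_combination this
    have e2 : 0 < (S - β) ^ 2 * (S ^ 2 - M ^ 2) :=
      mul_pos (pow_pos (by linarith) 2) (by linarith)
    rw [← e1] at e2
    exact (mul_pos_iff_of_pos_left (by positivity)).1 e2
  have s4 : 0 < 1 - (4 * Q - 4 * h ^ 2) := by rw [hhsq]; linarith
  have s5 : 0 < 1 - 4 * (Q - y ^ 2 - t ^ 2) := by
    have e1 : (β ^ 2 + S ^ 2) / 2 ≤ t ^ 2 + y ^ 2 := by
      have e3 : (S - β) ^ 2 * M ^ 2 ≤ (S - β) ^ 2 * S ^ 2 :=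
        mul_le_mul_of_nonneg_left hMS.le (sq_nonneg _)
      have e4 : 4 * M ^ 2 * y ^ 2 = (S - β) ^ 2 * S ^ 2 := by
        have : 4 * M ^ 2 * y ^ 2 = (y * (2 * M)) ^ 2 := by ring
        rw [this, hy]; ring
      have e5 : M ^ 2 * ((β ^ 2 + S ^ 2) / 2) ≤ M ^ 2 * (t ^ 2 + y ^ 2) := by
        rw [ht]
        nlinarith
      exact le_of_mul_le_mul_left e5 (by positivity)
    have e2 : (1 - 2 * Q) ^ 2 ≤ β ^ 2 := pow_le_pow_left₀ (by linarith) hβQ 2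
    nlinarith [mul_nonneg (show 0 ≤ 39 / 100 - Q by linarith) (show 0 ≤ 3815 / 1000 - 4 * Q by linarith)]
  obtain ⟨δ, hδ0, d1, d2, d3, d4, d5⟩ : ∃ δ : ℝ, 0 < δ ∧ δ ≤ (M - h) * (1 - 2 * Q) / M ∧
      δ ≤ 1 - 2 * Q - 2 * t * β ∧ δ ≤ 1 - 2 * Q - 2 * t ^ 2 + 2 * y ^ 2 ∧
      δ ≤ 1 - (4 * Q - 4 * h ^ 2) ∧ δ ≤ 1 - 4 * (Q - y ^ 2 - t ^ 2) := by
    refine ⟨min ((M - h) * (1 - 2 * Q) / M) (min (1 - 2 * Q - 2 * t * β)
      (min (1 - 2 * Q - 2 * t ^ 2 + 2 * y ^ 2) (min (1 - (4 * Q - 4 * h ^ 2))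
        (1 - 4 * (Q - y ^ 2 - t ^ 2))))), ?_, ?_, ?_, ?_, ?_, ?_⟩
    · exact lt_min s1 (lt_min s2 (lt_min s3 (lt_min s4 s5)))
    · exact min_le_left _ _
    · exact (min_le_right _ _).trans (min_le_left _ _)
    · exact (min_le_right _ _).trans ((min_le_right _ _).trans (min_le_left _ _))
    · exact (min_le_right _ _).trans ((min_le_right _ _).trans ((min_le_right _ _).trans
        (min_le_left _ _)))
    · exact (min_le_right _ _).trans ((min_le_right _ _).trans ((min_le_right _ _).trans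
        (min_le_right _ _)))
  refine ⟨δ, hδ0, h, t, ?_⟩
  intro i p z hp hz hip hiz
  obtain ⟨hp1, hp2⟩ := hp
  obtain ⟨hz1, hz2⟩ := hz
  unfold nn at hp1 hp2 hz1 hz2
  unfold dd
  rcases i with s | i
  · obtain ⟨⟨ha, hb⟩, hs⟩ := hip
    obtain ⟨⟨ha', hb'⟩, hs'⟩ := hiz
    obtain ⟨hu, hv⟩ := quad_mul hs hs'
    refine quad_pair (t := t) (y := y) (β := β) (h := h) hM hS (by linarith) (by rw [ht]; linarith)
      (by rw [ht]; linarith) hy0.le hβ hr hhM.le ?_ (by linarith) (by linarith) hp1 hp2 hz1 hz2 ha ha'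
      hb hb' hu hv
    rwa [le_div_iff₀ hM] at d1
  · fin_cases i
    · have := cap_pair hh0 hp1 hz1 hip hiz
      linarith
    · have h1 : p 0 ^ 2 + p 1 ^ 2 + p 2 ^ 2 + p 3 ^ 2 ≤ 1 - Q + 2 * p 0 * M - 2 * S * p 1 := by
        have := mul_le_mul_of_nonneg_left (le_abs_self (p 1)) (show 0 ≤ 2 * S by linarith)
        linarith
      have h2 : z 0 ^ 2 + z 1 ^ 2 + z 2 ^ 2 + z 3 ^ 2 ≤ 1 - Q + 2 * z 0 * M - 2 * S * z 1 := by
        have := mul_le_mul_of_nonneg_left (le_abs_self (z 1)) (show 0 ≤ 2 * S by linarith)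
        linarith
      have := tip_pair (t := t) (y := y) hM.le hS.le (by rw [ht]; linarith) hy0.le hyM
        (by linarith) hp1 hz1 h1 h2 hip hiz
      linarith
    · have h1 : p 0 ^ 2 + (-(p 1)) ^ 2 + p 2 ^ 2 + p 3 ^ 2 ≤
          1 - Q + 2 * p 0 * M - 2 * S * (-(p 1)) := by
        have := mul_le_mul_of_nonneg_left (neg_le_abs (p 1)) (show 0 ≤ 2 * S by linarith)
        rw [neg_sq]
        linarith
      have h2 : z 0 ^ 2 + (-(z 1)) ^ 2 + z 2 ^ 2 + z 3 ^ 2 ≤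
          1 - Q + 2 * z 0 * M - 2 * S * (-(z 1)) := by
        have := mul_le_mul_of_nonneg_left (neg_le_abs (z 1)) (show 0 ≤ 2 * S by linarith)
        rw [neg_sq]
        linarith
      have := tip_pair (t := t) (y := y) hM.le hS.le (by rw [ht]; linarith) hy0.le hyM
        (by linarith) (by rw [neg_sq]; exact hp1) (by rw [neg_sq]; exact hz1) h1 h2 hip hiz
      have e : (p 1 - z 1) ^ 2 = (-(p 1) - -(z 1)) ^ 2 := by ring
      rw [e]
      linarith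
    · exact hip.elim

theorem back_quad {M Q h : ℝ} (hM : 0 < M) (hQ : Q = M ^ 2 + (1 / 2) ^ 2)
    (h31 : 31 / 100 ≤ Q) (h39 : Q ≤ 39 / 100) (hhM : h < M) :
    ∃ δ : ℝ, 0 < δ ∧ ∀ s y z, Adm M (1 / 2) Q y → Adm M (1 / 2) Q z → y 0 ≤ h → z 0 ≤ h →
      Quad s y → Quad s z → dd y z ≤ 1 - δ := by
  set β : ℝ := 1 - 2 * Q with hβ
  have hβ0 : 0 < β := by rw [hβ]; linarith
  have hβ2 : β < 1 / 2 := by rw [hβ]; linarith
  have hM4 : 4 * M ^ 2 = 1 - 2 * β := by rw [hβ, hQ]; ring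
  set t0 : ℝ := Real.sqrt (1 - (M - h) ^ 2) - 1 / 2 with ht0
  have ht02 : t0 < 1 / 2 := by
    have h1 : Real.sqrt (1 - (M - h) ^ 2) < 1 := by
      rw [Real.sqrt_lt' one_pos]
      have : 0 < (M - h) ^ 2 := pow_pos (by linarith) 2
      linarith
    rw [ht0]
    linarith
  set t : ℝ := max t0 β with ht
  have ht2 : t < 1 / 2 := max_lt ht02 hβ2
  have htβ : β ≤ t := le_max_right _ _
  obtain ⟨y, hy⟩ : ∃ y : ℝ, y * (2 * M) = t - β := ⟨(t - β) / (2 * M), by field_simp⟩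
  have hy0 : 0 ≤ y := by
    by_contra hcon
    push Not at hcon
    have h1 : y * (2 * M) < 0 := mul_neg_of_neg_of_pos hcon (by linarith)
    linarith
  have s1 : 0 < (M - h) * (1 - 2 * Q) / M := by
    apply div_pos (mul_pos (by linarith) (by linarith)) hM
  have s2 : 0 < 1 - 2 * Q - 2 * t * β := by
    rw [← hβ]
    nlinarith [mul_pos hβ0 (show 0 < 1 / 2 - t by linarith)]
  have s3 : 0 < 1 - 2 * Q - 2 * t ^ 2 + 2 * y ^ 2 := by
    have e1 : 2 * M ^ 2 * (1 - 2 * Q - 2 * t ^ 2 + 2 * y ^ 2) = 2 * β * (t - 1 / 2) ^ 2 := by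
      have h5 : 4 * M ^ 2 * y ^ 2 = (t - β) ^ 2 := by rw [← hy]; ring
      rw [← hβ]
      have h6 : 4 * M ^ 2 * (β / 2 - t ^ 2) = (1 - 2 * β) * (β / 2 - t ^ 2) := by rw [hM4]
      linear_combination h6 + h5
    have e2 : 0 < 2 * β * (t - 1 / 2) ^ 2 := by
      apply mul_pos (by linarith)
      apply sq_pos_of_neg
      linarith
    rw [← e1] at e2
    exact (mul_pos_iff_of_pos_left (by positivity)).1 e2
  obtain ⟨δ, hδ0, d1, d2, d3⟩ : ∃ δ : ℝ, 0 < δ ∧ δ ≤ (M - h) * (1 - 2 * Q) / M ∧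
      δ ≤ 1 - 2 * Q - 2 * t * β ∧ δ ≤ 1 - 2 * Q - 2 * t ^ 2 + 2 * y ^ 2 := by
    refine ⟨min ((M - h) * (1 - 2 * Q) / M) (min (1 - 2 * Q - 2 * t * β)
      (1 - 2 * Q - 2 * t ^ 2 + 2 * y ^ 2)), ?_, ?_, ?_, ?_⟩
    · exact lt_min s1 (lt_min s2 s3)
    · exact min_le_left _ _
    · exact (min_le_right _ _).trans (min_le_left _ _)
    · exact (min_le_right _ _).trans (min_le_right _ _)
  refine ⟨δ, hδ0, ?_⟩
  have hbt : ∀ p : Fin 4 → ℝ, Adm M (1 / 2) Q p → p 0 ≤ h → |p 1| ≤ t := by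
    intro p hp hp0
    obtain ⟨_, hp2⟩ := hp
    unfold nn at hp2
    have h1 : (M - h) ^ 2 ≤ (M - p 0) ^ 2 := pow_le_pow_left₀ (by linarith) (by linarith) 2
    have h2 : (|p 1| + 1 / 2) ^ 2 ≤ 1 - (M - h) ^ 2 := by
      have h3 : |p 1| ^ 2 = p 1 ^ 2 := sq_abs _
      nlinarith [sq_nonneg (p 2), sq_nonneg (p 3)]
    have h4 : |p 1| + 1 / 2 ≤ Real.sqrt (1 - (M - h) ^ 2) := Real.le_sqrt_of_sq_le h2
    have h5 : |p 1| ≤ t0 := by rw [ht0]; linarith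
    exact h5.trans (le_max_left _ _)
  intro s p z hp hz ha ha' hs hs'
  have hbp := hbt p hp
  have hbz := hbt z hz
  obtain ⟨hp1, hp2⟩ := hp
  obtain ⟨hz1, hz2⟩ := hz
  unfold nn at hp1 hp2 hz1 hz2
  unfold dd
  obtain ⟨hu, hv⟩ := quad_mul hs hs'
  refine quad_pair (S := 1 / 2) (t := t) (y := y) (β := β) (h := h) hM (by norm_num) (by linarith)
    (hβ0.le.trans htβ)
    ht2.le hy0 (by rw [hβ]; ring) (by linarith) hhM.le ?_ (by linarith) (by linarith) hp1 hp2 hz1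
    hz2 ha ha' (hbp ha) (hbz ha') hu hv
  rwa [le_div_iff₀ hM] at d1

/-- Three sectors of the last two coordinates. -/
def Lune : Fin 3 → (Fin 4 → ℝ) → Prop
  | 0, y => 0 ≤ y 3 ∧ 0 ≤ y 2 + y 3
  | 1, y => 0 ≤ -(y 3) ∧ 0 ≤ y 2 + -(y 3)
  | 2, y => y 2 + y 3 ≤ 0 ∧ y 2 - y 3 ≤ 0

theorem exists_lune (y : Fin 4 → ℝ) : ∃ i, Lune i y := by
  rcases le_total 0 (y 3) with h3 | h3
  · rcases le_total 0 (y 2 + y 3) with h4 | h4
    · exact ⟨0, h3, h4⟩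
    · exact ⟨2, h4, by linarith⟩
  · rcases le_total 0 (y 2 + -(y 3)) with h4 | h4
    · exact ⟨1, by linarith, h4⟩
    · exact ⟨2, by linarith, by linarith⟩

theorem lune_pair {Q h : ℝ} (h0 : 0 ≤ h) (hQ : Q - h ^ 2 ≤ 252 / 1000) {y z : Fin 4 → ℝ}
    (hy : nn y ≤ Q) (hz : nn z ≤ Q) (hya : h ≤ y 0) (hza : h ≤ z 0) (hyb : -(9 / 20) ≤ y 1)
    (hzb : -(9 / 20) ≤ z 1) {i : Fin 3} (hyi : Lune i y) (hzi : Lune i z) :
    dd y z ≤ 1 - 4 / 1000 := by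
  unfold nn at hy hz
  unfold dd
  fin_cases i
  · have := front_lune7 h0 hQ hy hz hya hza hyb hzb
      (sector1 hyi.1 hyi.2 hzi.1 hzi.2)
    linarith
  · have hs := sector1 hyi.1 hyi.2 hzi.1 hzi.2
    have e : -(y 3) * -(z 3) = y 3 * z 3 := by ring
    rw [e, neg_sq, neg_sq] at hs
    have := front_lune7 h0 hQ hy hz hya hza hyb hzb hs
    linarith
  · have hs := sector3 hyi.1 hyi.2 hzi.1 hzi.2
    have := front_lune7 h0 hQ hy hz hya hza hyb hzb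
      (Or.inl (by nlinarith [sq_nonneg (y 2), sq_nonneg (y 3), sq_nonneg (z 2), sq_nonneg (z 3)]))
    linarith

end Vale.Agent.P052.H846
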