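import Vale.Agent.P052.H846.Main

/-!
P052: every bounded set of `ℝ⁴` is a union of eight sets of smaller diameter; the case of two contact
points, and the theorem.
-/

namespace Vale.Agent.P052.H846

open Metric Set
open scoped RealInnerProductSpace

/-- Coordinates adapted to two vectors of equal length. -/
theorem exists_coords {p1 p2 : E4} {Q g M S : ℝ} (h1 : ‖p1‖ ^ 2 = Q) (h2 : ‖p2‖ ^ 2 = Q)
    (hg : ⟪p1, p2⟫ = g) (hM : 0 < M) (hS : 0 < S) (hM2 : 2 * M ^ 2 = Q + g)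
    (hS2 : 2 * S ^ 2 = Q - g) :
    ∃ b : OrthonormalBasis (Fin 4) ℝ E4, p1 = M • b 0 - S • b 1 ∧ p2 = M • b 0 + S • b 1 := by
  have e11 : ⟪p1, p1⟫ = Q := by rw [real_inner_self_eq_norm_sq, h1]
  have e22 : ⟪p2, p2⟫ = Q := by rw [real_inner_self_eq_norm_sq, h2]
  have e21 : ⟪p2, p1⟫ = g := by rw [real_inner_comm, hg]
  set a0 : E4 := (2 * M)⁻¹ • (p1 + p2) with ha0
  set a1 : E4 := (2 * S)⁻¹ • (p2 - p1) with ha1
  have i00 : ⟪a0, a0⟫ = 1 := by
    rw [ha0, real_inner_smul_left, real_inner_smul_right, inner_add_left, inner_add_right,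
      inner_add_right, e11, e22, e21, hg]
    field_simp
    nlinarith
  have i11 : ⟪a1, a1⟫ = 1 := by
    rw [ha1, real_inner_smul_left, real_inner_smul_right, inner_sub_left, inner_sub_right,
      inner_sub_right, e11, e22, e21, hg]
    field_simp
    nlinarith
  have i01 : ⟪a0, a1⟫ = 0 := by
    rw [ha0, ha1, real_inner_smul_left, real_inner_smul_right, inner_add_left, inner_sub_right,
      inner_sub_right, e11, e22, e21, hg]
    ring
  let v : Fin 4 → E4 := ![a0, a1, 0, 0]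
  have i10 : ⟪a1, a0⟫ = 0 := by rw [real_inner_comm]; exact i01
  have hv : Orthonormal ℝ (({0, 1} : Set (Fin 4)).domRestrict v) := by
    rw [orthonormal_iff_ite]
    rintro ⟨i, hi⟩ ⟨j, hj⟩
    show ⟪v i, v j⟫ = _
    simp only [mem_insert_iff, mem_singleton_iff] at hi hj
    rcases hi with rfl | rfl <;> rcases hj with rfl | rfl
    · rw [if_pos rfl]
      exact i00
    · rw [if_neg (by simp)]
      exact i01
    · rw [if_neg (by simp)]
      exact i10
    · rw [if_pos rfl]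
      exact i11
  obtain ⟨b, hb⟩ := hv.exists_orthonormalBasis_extension_of_card_eq (by simp)
  have hb0 : b 0 = a0 := by
    have := hb 0 (by simp)
    simpa [v] using this
  have hb1 : b 1 = a1 := by
    have := hb 1 (by simp)
    simpa [v] using this
  refine ⟨b, ?_, ?_⟩
  · rw [hb0, hb1, ha0, ha1, smul_smul, smul_smul]
    have c1 : M * (2 * M)⁻¹ = 1 / 2 := by field_simp
    have c2 : S * (2 * S)⁻¹ = 1 / 2 := by field_simp
    rw [c1, c2]
    module
  · rw [hb0, hb1, ha0, ha1, smul_smul, smul_smul]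
    have c1 : M * (2 * M)⁻¹ = 1 / 2 := by field_simp
    have c2 : S * (2 * S)⁻¹ = 1 / 2 := by field_simp
    rw [c1, c2]
    module

/-- The case of two contact points. -/
theorem contact_case {X : Set E4} (hD : 0 < Metric.diam X) {c e e' : E4}
    {r : ℝ} (hc : ∀ x ∈ X, ‖x - c‖ ≤ r)
    (hr1 : 31 / 100 * Metric.diam X ^ 2 ≤ r ^ 2) (hr2 : r ^ 2 ≤ 39 / 100 * Metric.diam X ^ 2)
    (he : ∀ x ∈ X, ‖(x - c) - e‖ ≤ Metric.diam X) (he' : ∀ x ∈ X, ‖(x - c) - e'‖ ≤ Metric.diam X)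
    (hee' : ‖e - e'‖ ≤ Metric.diam X)
    (her : ‖e‖ = r) (her' : ‖e'‖ = r) (hi : ⟪e, e'⟫ ≤ -(r ^ 2) / 4) :
    IsSmallerCover X 8 := by
  set D := Metric.diam X with hDdef
  have hDi : 0 < D⁻¹ := inv_pos.2 hD
  have hDD : D⁻¹ * D = 1 := inv_mul_cancel₀ hD.ne'
  have hDD2 : D⁻¹ ^ 2 * D ^ 2 = 1 := by rw [← mul_pow, hDD, one_pow]
  set p1 : E4 := D⁻¹ • e with hp1
  set p2 : E4 := D⁻¹ • e' with hp2
  set Q : ℝ := D⁻¹ ^ 2 * r ^ 2 with hQ
  set g : ℝ := ⟪p1, p2⟫ with hg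
  have hn : ∀ z : E4, ‖D⁻¹ • z‖ ^ 2 = D⁻¹ ^ 2 * ‖z‖ ^ 2 := by
    intro z
    rw [norm_smul, Real.norm_eq_abs, abs_of_pos hDi, mul_pow]
  have n1 : ‖p1‖ ^ 2 = Q := by rw [hp1, hn, her]
  have n2 : ‖p2‖ ^ 2 = Q := by rw [hp2, hn, her']
  have hge : g = D⁻¹ ^ 2 * ⟪e, e'⟫ := by
    rw [hg, hp1, hp2, real_inner_smul_left, real_inner_smul_right]
    ring
  have hQ31 : 31 / 100 ≤ Q := by
    have := mul_le_mul_of_nonneg_left hr1 (sq_nonneg D⁻¹)
    nlinarith
  have hQ39 : Q ≤ 39 / 100 := by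
    have := mul_le_mul_of_nonneg_left hr2 (sq_nonneg D⁻¹)
    nlinarith
  have hg4 : g ≤ -Q / 4 := by
    have := mul_le_mul_of_nonneg_left hi (sq_nonneg D⁻¹)
    rw [hge, hQ]
    linarith
  have hgQ : 2 * Q - 2 * g ≤ 1 := by
    have h1 : ‖p1 - p2‖ ^ 2 ≤ 1 := by
      rw [hp1, hp2, ← smul_sub, hn]
      have := mul_le_mul_of_nonneg_left (pow_le_pow_left₀ (norm_nonneg _) hee' 2) (sq_nonneg D⁻¹)
      linarith
    rw [norm_sub_sq_real, n1, n2, ← hg] at h1
    linarith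
  set M : ℝ := Real.sqrt ((Q + g) / 2) with hM
  set S : ℝ := Real.sqrt ((Q - g) / 2) with hS
  have hMsq : M ^ 2 = (Q + g) / 2 := Real.sq_sqrt (by linarith)
  have hSsq : S ^ 2 = (Q - g) / 2 := Real.sq_sqrt (by linarith)
  have hM0 : 0 < M := Real.sqrt_pos.2 (by linarith)
  have hS0 : 0 < S := Real.sqrt_pos.2 (by linarith)
  have hS2 : S ≤ 1 / 2 := by
    apply Real.sqrt_le_iff.2
    constructor
    · norm_num
    · linarith
  obtain ⟨δ, hδ, C, hC, hCd⟩ := cells hM0 hS0 hS2 (Q := Q) (by rw [hMsq, hSsq]; ring) hQ31 hQ39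
    (by rw [hSsq]; linarith)
  obtain ⟨b, hb1, hb2⟩ := exists_coords n1 n2 hg.symm hM0 hS0 (by rw [hMsq]; ring)
    (by rw [hSsq]; ring)
  -- coordinates
  let Y : E4 → Fin 4 → ℝ := fun z i => b.repr (D⁻¹ • z) i
  have hYn : ∀ z, nn (Y z) = ‖D⁻¹ • z‖ ^ 2 := by
    intro z
    rw [← b.repr.norm_map (D⁻¹ • z), norm_sq_four]
    rfl
  have hYd : ∀ z w, dd (Y z) (Y w) = ‖D⁻¹ • (z - w)‖ ^ 2 := by
    intro z w
    rw [← b.repr.norm_map (D⁻¹ • (z - w)), norm_sq_four, smul_sub, map_sub]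
    simp only [PiLp.sub_apply]
    rfl
  have hYi : ∀ z i, Y z i = ⟪b i, D⁻¹ • z⟫ := fun z i => b.repr_apply_apply _ _
  have hadm : ∀ x ∈ X, Adm M S Q (Y (x - c)) := by
    intro x hx
    have f0 : nn (Y (x - c)) ≤ Q := by
      rw [hYn, hn]
      exact mul_le_mul_of_nonneg_left (pow_le_pow_left₀ (norm_nonneg _) (hc x hx) 2)
        (sq_nonneg _)
    have f1 : ‖D⁻¹ • (x - c) - p1‖ ^ 2 ≤ 1 := by
      rw [hp1, ← smul_sub, hn]
      have := mul_le_mul_of_nonneg_left (pow_le_pow_left₀ (norm_nonneg _) (he x hx) 2)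
        (sq_nonneg D⁻¹)
      linarith
    have f2 : ‖D⁻¹ • (x - c) - p2‖ ^ 2 ≤ 1 := by
      rw [hp2, ← smul_sub, hn]
      have := mul_le_mul_of_nonneg_left (pow_le_pow_left₀ (norm_nonneg _) (he' x hx) 2)
        (sq_nonneg D⁻¹)
      linarith
    rw [norm_sub_sq_real, n1, ← hYn] at f1
    rw [norm_sub_sq_real, n2, ← hYn] at f2
    have g1 : ⟪D⁻¹ • (x - c), p1⟫ = M * Y (x - c) 0 - S * Y (x - c) 1 := by
      rw [hYi, hYi, hb1, inner_sub_right, real_inner_smul_right, real_inner_smul_right,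
        real_inner_comm (b 0), real_inner_comm (b 1)]
    have g2 : ⟪D⁻¹ • (x - c), p2⟫ = M * Y (x - c) 0 + S * Y (x - c) 1 := by
      rw [hYi, hYi, hb2, inner_add_right, real_inner_smul_right, real_inner_smul_right,
        real_inner_comm (b 0), real_inner_comm (b 1)]
    rw [g1] at f1
    rw [g2] at f2
    refine ⟨f0, ?_⟩
    rcases abs_cases (Y (x - c) 1) with ⟨h, _⟩ | ⟨h, _⟩
    · rw [h]; linarith
    · rw [h]; linarith
  refine H768.smallerCover_of (ι := (Bool × Bool) ⊕ Fin 4) hD c (by simp)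
    (fun i => {z | Adm M S Q (Y z) ∧ C i (Y z)}) ?_ (D' := Real.sqrt (1 - δ) * D) ?_ ?_
  · intro x hx
    obtain ⟨i, hi⟩ := hC _ (hadm x hx)
    exact ⟨i, hadm x hx, hi⟩
  · have h1 : Real.sqrt (1 - δ) < 1 := by
      rw [Real.sqrt_lt' one_pos]
      linarith
    nlinarith
  · rintro i z ⟨hz1, hz2⟩ w ⟨hw1, hw2⟩
    have h1 := hCd i _ _ hz1 hw1 hz2 hw2
    rw [hYd, hn, ← mul_pow, ← dist_eq_norm] at h1
    have h2 : D⁻¹ * dist z w ≤ Real.sqrt (1 - δ) := Real.le_sqrt_of_sq_le h1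
    calc dist z w = (D⁻¹ * dist z w) * D := by field_simp
      _ ≤ Real.sqrt (1 - δ) * D := mul_le_mul_of_nonneg_right h2 hD.le

/-- **`b(4) ≤ 8`.** -/
theorem eight {X : Set E4} (hb : Bornology.IsBounded X) (hD : 0 < Metric.diam X) :
    IsSmallerCover X 8 := by
  by_cases hno : ∀ c, ¬ X ⊆ Metric.closedBall c (Real.sqrt (39 / 100) * Metric.diam X)
  · obtain ⟨P, hP, hd⟩ := Vale.Agent.P052.J373.explicit_plain 4 (39 / 100) (Or.inl ⟨rfl, rfl⟩) X hb
      hD hno
    exact mono_cover (m := 5) (by norm_num) hD ⟨P, hP, hd⟩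
  push Not at hno
  obtain ⟨c₀, hc₀⟩ := hno
  set D := Metric.diam X with hDdef
  have hXne : X.Nonempty := by
    rw [nonempty_iff_ne_empty]
    intro h
    rw [hDdef, h, Metric.diam_empty] at hD
    exact lt_irrefl _ hD
  have hKc : IsCompact (closure X) := hb.isCompact_closure
  have hdiam : ∀ x ∈ closure X, ∀ y ∈ closure X, dist x y ≤ D := by
    intro x hx y hy
    rw [hDdef, ← Metric.diam_closure]
    exact Metric.dist_le_diam_of_mem hb.closure hx hy
  obtain ⟨c, r, hr0, hc, hmin, hhull⟩ := exists_min_ball hKc (hXne.mono subset_closure)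
  have hr39 : r ≤ Real.sqrt (39 / 100) * D := by
    apply hmin c₀
    intro x hx
    have h1 : closure X ⊆ closedBall c₀ (Real.sqrt (39 / 100) * D) :=
      closure_minimal hc₀ isClosed_closedBall
    have := h1 hx
    rwa [mem_closedBall, dist_eq_norm] at this
  have hr39' : r ^ 2 ≤ 39 / 100 * D ^ 2 := by
    have h1 := pow_le_pow_left₀ hr0 hr39 2
    rwa [mul_pow, Real.sq_sqrt (by norm_num)] at h1
  rcases le_or_gt (r ^ 2) (31 / 100 * D ^ 2) with h | h
  · exact small_case hD (fun x hx => hc x (subset_closure hx)) h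
  · set P : Set E4 := {e : E4 | ∃ x ∈ closure X, x - c = e ∧ ‖e‖ = r} with hP
    have hPne : P.Nonempty := by
      by_contra hcon
      rw [not_nonempty_iff_eq_empty] at hcon
      rw [hcon, convexHull_empty, closure_empty] at hhull
      exact hhull
    have hPc : IsCompact P := by
      have h1 : P = (fun x => x - c) '' closure X ∩ {e | ‖e‖ = r} := by
        ext e
        constructor
        · rintro ⟨x, hx, h2, h3⟩
          exact ⟨⟨x, hx, h2⟩, h3⟩
        · rintro ⟨⟨x, hx, h2⟩, h3⟩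
          exact ⟨x, hx, h2, h3⟩
      rw [h1]
      exact (hKc.image (by fun_prop)).inter_right (isClosed_eq continuous_norm continuous_const)
    obtain ⟨e, he, e', he', hi⟩ := pair_of_hull (n := 4) (by norm_num) (by simp) hPc hPne
      (fun e he => by obtain ⟨_, _, _, h3⟩ := he; exact h3) hhull
    obtain ⟨x, hx, rfl, hxr⟩ := he
    obtain ⟨x', hx', rfl, hxr'⟩ := he'
    refine contact_case (c := c) (r := r) hD (fun y hy => hc y (subset_closure hy)) h.le hr39'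
      (fun y hy => ?_) (fun y hy => ?_) ?_ hxr hxr' (by exact_mod_cast hi)
    · rw [sub_sub_sub_cancel_right, ← dist_eq_norm]
      exact hdiam _ (subset_closure hy) _ hx
    · rw [sub_sub_sub_cancel_right, ← dist_eq_norm]
      exact hdiam _ (subset_closure hy) _ hx'
    · rw [sub_sub_sub_cancel_right, ← dist_eq_norm]
      exact hdiam _ hx _ hx'

end Vale.Agent.P052.H846
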