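import Mathlib.Analysis.Convex.Caratheodory
import Mathlib.Analysis.LocallyConvex.Separation
import Mathlib.Analysis.InnerProductSpace.PiL2
import Mathlib.Analysis.InnerProductSpace.Dual
import Mathlib.LinearAlgebra.AffineSpace.FiniteDimensional

/-!
P052, `b(4) ≤ 8`: two contact points with a small inner product.
-/

namespace Vale.Agent.P052.H846

open Metric Set
open scoped RealInnerProductSpace

variable {V : Type*} [NormedAddCommGroup V] [InnerProductSpace ℝ V] [FiniteDimensional ℝ V]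

theorem pair_of_hull {n : ℕ} (hn : 1 ≤ n) (hV : Module.finrank ℝ V ≤ n) {M : Set V}
    (hM : IsCompact M) (hne : M.Nonempty) {r : ℝ} (hr : ∀ e ∈ M, ‖e‖ = r)
    (h0 : (0 : V) ∈ closure (convexHull ℝ M)) :
    ∃ e ∈ M, ∃ e' ∈ M, ⟪e, e'⟫ ≤ -(r ^ 2) / n := by
  obtain ⟨e₀, he₀⟩ := hne
  have hr0 : 0 ≤ r := by rw [← hr e₀ he₀]; exact norm_nonneg _
  obtain ⟨q, hq, hmin⟩ := (hM.prod hM).exists_isMinOn ⟨(e₀, e₀), ⟨he₀, he₀⟩⟩
    ((by fun_prop : Continuous fun p : V × V => ⟪p.1, p.2⟫).continuousOn)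
  have hm : ∀ e ∈ M, ∀ e' ∈ M, ⟪q.1, q.2⟫ ≤ ⟪e, e'⟫ := fun e he e' he' =>
    hmin (show (e, e') ∈ M ×ˢ M from ⟨he, he'⟩)
  set m : ℝ := ⟪q.1, q.2⟫ with hmdef
  have hmr : m ≤ r ^ 2 := by
    have := hm e₀ he₀ e₀ he₀
    rwa [real_inner_self_eq_norm_sq, hr e₀ he₀] at this
  refine ⟨q.1, hq.1, q.2, hq.2, le_of_forall_pos_le_add fun ε hε => ?_⟩
  have hn0 : (0 : ℝ) < n := by exact_mod_cast hn
  set δ : ℝ := ε * n / (n + 1) with hδ
  have hδ0 : 0 < δ := by positivity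
  have hε' : 0 < δ / (r + 1) := by positivity
  obtain ⟨p, hp, hp0⟩ := Metric.mem_closure_iff.1 h0 _ hε'
  rw [dist_zero_left] at hp0
  obtain ⟨ι, hι, z, w, hz, haff, hw, hw1, hsum⟩ := eq_pos_convex_span_of_mem_convexHull hp
  have hcard : Fintype.card ι ≤ n + 1 := by
    have h1 := haff.card_le_finrank_succ
    have h4 := Submodule.finrank_le (vectorSpan ℝ (Set.range z))
    omega
  have hne' : Nonempty ι := by
    by_contra hcon
    rw [not_nonempty_iff] at hcon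
    simp at hw1
  obtain ⟨i, hi⟩ : ∃ i, 1 / ((n : ℝ) + 1) ≤ w i := by
    by_contra hcon
    push Not at hcon
    have h1 : ∑ i, w i < ∑ _i : ι, 1 / ((n : ℝ) + 1) :=
      Finset.sum_lt_sum_of_nonempty Finset.univ_nonempty fun i _ => hcon i
    rw [hw1, Finset.sum_const, Finset.card_univ, nsmul_eq_mul] at h1
    have h2 : (Fintype.card ι : ℝ) ≤ (n : ℝ) + 1 := by exact_mod_cast hcard
    have h3 : (Fintype.card ι : ℝ) * (1 / ((n : ℝ) + 1)) ≤ 1 := by
      rw [mul_one_div, div_le_one (by positivity)]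
      exact h2
    linarith
  have hzM : ∀ j, z j ∈ M := fun j => hz ⟨j, rfl⟩
  have h5 : ⟪z i, p⟫ = ∑ j, w j * ⟪z i, z j⟫ := by
    rw [← hsum, inner_sum]
    exact Finset.sum_congr rfl fun j _ => inner_smul_right _ _ _
  classical
  have h6 : m + w i * (r ^ 2 - m) ≤ ⟪z i, p⟫ := by
    have h7 : ∑ j, w j * (m + if j = i then r ^ 2 - m else 0)
        ≤ ∑ j, w j * ⟪z i, z j⟫ := by
      refine Finset.sum_le_sum fun j _ => mul_le_mul_of_nonneg_left ?_ (hw j).le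
      by_cases hj : j = i
      · rw [if_pos hj, hj, real_inner_self_eq_norm_sq, hr _ (hzM i)]; linarith
      · rw [if_neg hj, add_zero]; exact hm _ (hzM i) _ (hzM j)
    rw [← h5] at h7
    refine le_trans (le_of_eq ?_) h7
    simp only [mul_add, Finset.sum_add_distrib, mul_ite, mul_zero, Finset.sum_ite_eq',
      Finset.mem_univ, if_true]
    rw [← Finset.sum_mul, hw1, one_mul]
  have h8 : ⟪z i, p⟫ ≤ δ := by
    have h9 := real_inner_le_norm (z i) p
    rw [hr _ (hzM i)] at h9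
    have h10 : r * ‖p‖ ≤ r * (δ / (r + 1)) := mul_le_mul_of_nonneg_left hp0.le hr0
    have h11 : r * (δ / (r + 1)) ≤ δ := by
      rw [mul_div_assoc', div_le_iff₀ (by positivity)]
      nlinarith
    linarith
  have h12 : 1 / ((n : ℝ) + 1) * (r ^ 2 - m) ≤ w i * (r ^ 2 - m) :=
    mul_le_mul_of_nonneg_right hi (by linarith)
  have h13 : m + 1 / ((n : ℝ) + 1) * (r ^ 2 - m) ≤ ε * n / (n + 1) := by linarith
  have h14 : m * (n + 1) + (r ^ 2 - m) ≤ ε * n := by
    have e1 : m + 1 / ((n : ℝ) + 1) * (r ^ 2 - m) = (m * (n + 1) + (r ^ 2 - m)) / (n + 1) := by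
      field_simp
    rw [e1] at h13
    exact (div_le_div_iff_of_pos_right (by positivity)).1 h13
  rw [show -(r ^ 2) / (n : ℝ) + ε = (ε * n - r ^ 2) / n by field_simp; ring,
    le_div_iff₀ hn0]
  linarith

/-- The minimal ball of a compact set: its centre lies in the closed convex hull of the contact
points. -/
theorem exists_min_ball {K : Set V} (hK : IsCompact K) (hne : K.Nonempty) :
    ∃ (c : V) (r : ℝ), 0 ≤ r ∧ (∀ x ∈ K, ‖x - c‖ ≤ r) ∧
      (∀ (c' : V) (r' : ℝ), (∀ x ∈ K, ‖x - c'‖ ≤ r') → r ≤ r') ∧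
      (0 : V) ∈ closure (convexHull ℝ {e : V | ∃ x ∈ K, x - c = e ∧ ‖e‖ = r}) := by
  obtain ⟨x₀, hx₀⟩ := hne
  -- a compact set of admissible pairs
  obtain ⟨D, hD⟩ := hK.isBounded.subset_closedBall x₀
  set T : Set (V × ℝ) := {p | (∀ x ∈ K, ‖x - p.1‖ ≤ p.2) ∧ p.2 ≤ D} with hT
  have hTcl : IsClosed T := by
    have h1 : T = (⋂ x ∈ K, {p : V × ℝ | ‖x - p.1‖ ≤ p.2}) ∩ {p : V × ℝ | p.2 ≤ D} := by
      ext p
      simp [hT]
    rw [h1]
    refine IsClosed.inter (isClosed_biInter fun x _ => ?_) ?_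
    · exact isClosed_le (by fun_prop) (by fun_prop)
    · exact isClosed_le (by fun_prop) (by fun_prop)
  have hTsub : T ⊆ closedBall x₀ D ×ˢ Icc 0 D := by
    rintro ⟨c, r⟩ ⟨h1, h2⟩
    have h3 := h1 x₀ hx₀
    refine ⟨?_, ?_, h2⟩
    · rw [mem_closedBall, dist_comm, dist_eq_norm]
      exact h3.trans h2
    · exact (norm_nonneg _).trans h3
  have hTc : IsCompact T :=
    ((isCompact_closedBall x₀ D).prod isCompact_Icc).of_isClosed_subset hTcl hTsub
  have hTne : T.Nonempty := ⟨(x₀, D), fun x hx => by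
    have := hD hx
    rwa [mem_closedBall, dist_eq_norm] at this, le_rfl⟩
  obtain ⟨⟨c, r⟩, ⟨hc1, hc2⟩, hmin⟩ := hTc.exists_isMinOn hTne
    ((by fun_prop : Continuous fun p : V × ℝ => p.2).continuousOn)
  have hmin' : ∀ (c' : V) (r' : ℝ), (∀ x ∈ K, ‖x - c'‖ ≤ r') → r ≤ r' := by
    intro c' r' h
    rcases le_or_gt r' D with h1 | h1
    · exact hmin (show (c', r') ∈ T from ⟨h, h1⟩)
    · exact hc2.trans h1.le
  have hr0 : 0 ≤ r := (norm_nonneg _).trans (hc1 x₀ hx₀)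
  refine ⟨c, r, hr0, hc1, hmin', ?_⟩
  by_contra hcon
  obtain ⟨f, s, h1, h2⟩ := geometric_hahn_banach_closed_point
    ((convex_convexHull ℝ {e : V | ∃ x ∈ K, x - c = e ∧ ‖e‖ = r}).closure) isClosed_closure hcon
  rw [map_zero] at h2
  set v := (InnerProductSpace.toDual ℝ V).symm f with hv
  have hf : ∀ a, f a = ⟪v, a⟫ := fun a => by
    rw [hv, InnerProductSpace.toDual_symm_apply]
  have hneg : ∀ x ∈ K, ‖x - c‖ = r → ⟪v, x - c⟫ < s := by
    intro x hx hxr
    rw [← hf]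
    exact h1 _ (subset_closure (subset_convexHull ℝ _ ⟨x, hx, rfl, hxr⟩))
  -- the part of `K` where the functional is not very negative
  set K' : Set V := {x ∈ K | s ≤ ⟪v, x - c⟫} with hK'
  have hcl : IsClosed {x : V | s ≤ ⟪v, x - c⟫} := isClosed_le continuous_const (by fun_prop)
  have hK'c : IsCompact K' := hK.inter_right hcl
  obtain ⟨ρ, hρr, hρ⟩ : ∃ ρ < r, ∀ x ∈ K', ‖x - c‖ ≤ ρ := by
    rcases K'.eq_empty_or_nonempty with h | h
    · exact ⟨r - 1, by linarith, fun x hx => by rw [h] at hx; exact hx.elim⟩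
    · obtain ⟨x, hx, hmax⟩ := hK'c.exists_isMaxOn h
        ((by fun_prop : Continuous fun x : V => ‖x - c‖).continuousOn)
      refine ⟨‖x - c‖, lt_of_le_of_ne (hc1 x hx.1) fun he => ?_, fun y hy => hmax hy⟩
      have := hneg x hx.1 he
      linarith [hx.2]
  have hr1 : 0 < r := by
    rcases hr0.lt_or_eq with h | h
    · exact h
    · exfalso
      have h3 := hneg x₀ hx₀ (le_antisymm (hc1 x₀ hx₀) (by rw [← h]; exact norm_nonneg _))
      have h4 : x₀ - c = 0 := by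
        have := hc1 x₀ hx₀
        rw [← h] at this
        exact norm_le_zero_iff.1 this
      rw [h4, inner_zero_right] at h3
      linarith
  -- move the centre by `- ε v`
  obtain ⟨ε, hε0, hε1, hε2⟩ : ∃ ε : ℝ, 0 < ε ∧ ε * ‖v‖ < r - ρ ∧ ε * ‖v‖ ^ 2 < -s := by
    refine ⟨min ((r - ρ) / (2 * (‖v‖ + 1))) (-s / (2 * (‖v‖ ^ 2 + 1))), ?_, ?_, ?_⟩
    · apply lt_min
      · apply div_pos (by linarith) (by positivity)
      · apply div_pos (by linarith) (by positivity)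
    · have h3 : min ((r - ρ) / (2 * (‖v‖ + 1))) (-s / (2 * (‖v‖ ^ 2 + 1))) * ‖v‖ ≤
          (r - ρ) / (2 * (‖v‖ + 1)) * ‖v‖ :=
        mul_le_mul_of_nonneg_right (min_le_left _ _) (norm_nonneg _)
      refine h3.trans_lt ?_
      rw [div_mul_eq_mul_div, div_lt_iff₀ (by positivity)]
      nlinarith [norm_nonneg v]
    · have h3 : min ((r - ρ) / (2 * (‖v‖ + 1))) (-s / (2 * (‖v‖ ^ 2 + 1))) * ‖v‖ ^ 2 ≤
          -s / (2 * (‖v‖ ^ 2 + 1)) * ‖v‖ ^ 2 :=
        mul_le_mul_of_nonneg_right (min_le_right _ _) (by positivity)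
      refine h3.trans_lt ?_
      rw [div_mul_eq_mul_div, div_lt_iff₀ (by positivity)]
      nlinarith [norm_nonneg v]
  have hA : 0 ≤ r ^ 2 + ε * (2 * s + ε * ‖v‖ ^ 2) ∨ r ^ 2 + ε * (2 * s + ε * ‖v‖ ^ 2) < 0 :=
    le_or_gt _ _
  set r' : ℝ := max (ρ + ε * ‖v‖) (Real.sqrt (r ^ 2 + ε * (2 * s + ε * ‖v‖ ^ 2))) with hr'
  have hr'r : r' < r := by
    apply max_lt
    · linarith
    · rw [Real.sqrt_lt' hr1]
      have : ε * (2 * s + ε * ‖v‖ ^ 2) < 0 := mul_neg_of_pos_of_neg hε0 (by linarith)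
      linarith
  have hfin : ∀ x ∈ K, ‖x - (c - ε • v)‖ ≤ r' := by
    intro x hx
    have e1 : x - (c - ε • v) = (x - c) + ε • v := by abel
    rcases le_or_gt s ⟪v, x - c⟫ with h | h
    · refine le_trans ?_ (le_max_left _ _)
      rw [e1]
      refine (norm_add_le _ _).trans ?_
      rw [norm_smul, Real.norm_eq_abs, abs_of_pos hε0]
      linarith [hρ x ⟨hx, h⟩]
    · refine le_trans ?_ (le_max_right _ _)
      apply Real.le_sqrt_of_sq_le
      rw [e1, norm_add_sq_real, real_inner_smul_right, norm_smul, Real.norm_eq_abs,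
        abs_of_pos hε0, real_inner_comm]
      have h3 := pow_le_pow_left₀ (norm_nonneg _) (hc1 x hx) 2
      have h4 : ε * ⟪v, x - c⟫ ≤ ε * s := mul_le_mul_of_nonneg_left h.le hε0.le
      nlinarith
  have := hmin' _ _ hfin
  linarith

end Vale.Agent.P052.H846
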