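import Vale.Agent.P052.H846.Cells
import Vale.Agent.P052.H846.Pair
import Vale.Agent.P052.H768.Cover
import Vale.Agent.P052.R4.H373.Plain

/-!
P052: every bounded set of `ℝ⁴` is a union of eight sets of smaller diameter.
-/

namespace Vale.Agent.P052.H846

open Metric Set
open scoped RealInnerProductSpace

abbrev E4 := EuclideanSpace ℝ (Fin 4)

theorem cells {M S Q : ℝ} (hM : 0 < M) (hS : 0 < S) (hS2 : S ≤ 1 / 2) (hQ : Q = M ^ 2 + S ^ 2)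
    (h31 : 31 / 100 ≤ Q) (h39 : Q ≤ 39 / 100) (hS5 : 5 / 8 * Q ≤ S ^ 2) :
    ∃ δ : ℝ, 0 < δ ∧ ∃ C : (Bool × Bool) ⊕ Fin 4 → (Fin 4 → ℝ) → Prop,
      (∀ y, Adm M S Q y → ∃ i, C i y) ∧
      ∀ i y z, Adm M S Q y → Adm M S Q z → C i y → C i z → dd y z ≤ 1 - δ := by
  rcases hS2.lt_or_eq with h | h
  · exact cells1 hM hS h hQ h31 h39 hS5
  · subst h
    exact cells2 hM hQ h31 h39

theorem norm_sq_four (w : E4) : ‖w‖ ^ 2 = w 0 ^ 2 + w 1 ^ 2 + w 2 ^ 2 + w 3 ^ 2 := by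
  rw [EuclideanSpace.norm_sq_eq, Fin.sum_univ_four]
  simp only [Real.norm_eq_abs, sq_abs]

theorem mono_cover {X : Set E4} {m n : ℕ} (hmn : m ≤ n) (hD : 0 < Metric.diam X)
    (h : IsSmallerCover X m) : IsSmallerCover X n := by
  obtain ⟨P, hP, hd⟩ := h
  refine ⟨fun j => if hj : (j : ℕ) < m then P ⟨j, hj⟩ else ∅, ?_, fun j => ?_⟩
  · rw [← hP]
    ext x
    simp only [mem_iUnion]
    constructor
    · rintro ⟨j, hj⟩
      split_ifs at hj with h1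
      · exact ⟨_, hj⟩
      · exact hj.elim
    · rintro ⟨i, hi⟩
      refine ⟨⟨i, lt_of_lt_of_le i.2 hmn⟩, ?_⟩
      rw [dif_pos i.2]
      exact hi
  · dsimp only
    split_ifs with h1
    · exact hd _
    · rw [Metric.diam_empty]
      exact hD

/-- Small circumradius: the fan of the tesseract. -/
theorem small_case {X : Set E4} (hD : 0 < Metric.diam X) {c : E4} {r : ℝ}
    (hc : ∀ x ∈ X, ‖x - c‖ ≤ r) (hr : r ^ 2 ≤ 31 / 100 * Metric.diam X ^ 2) :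
    IsSmallerCover X 8 := by
  set D := Metric.diam X with hDdef
  let C : Fin 4 × Bool → Set E4 := fun s => {z | ‖z‖ ≤ r ∧
    ∀ j, |z j| ≤ (if s.2 then (1 : ℝ) else -1) * z s.1}
  refine H768.smallerCover_of (ι := Fin 4 × Bool) hD c (by simp) C ?_
    (D' := Real.sqrt (99 / 100) * D) ?_ ?_
  · intro x hx
    obtain ⟨i, hi⟩ := Finite.exists_max fun j : Fin 4 => |(x - c) j|
    rcases le_total 0 ((x - c) i) with h | h
    · refine ⟨(i, true), hc x hx, fun j => ?_⟩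
      have h2 : |(x - c) j| ≤ (x - c) i := (hi j).trans (abs_of_nonneg h).le
      show |(x - c) j| ≤ (if (true : Bool) then (1 : ℝ) else -1) * (x - c) i
      rw [if_pos rfl, one_mul]
      exact h2
    · refine ⟨(i, false), hc x hx, fun j => ?_⟩
      have h2 : |(x - c) j| ≤ -((x - c) i) := (hi j).trans (abs_of_nonpos h).le
      show |(x - c) j| ≤ (if (false : Bool) then (1 : ℝ) else -1) * (x - c) i
      rw [if_neg (by simp), neg_one_mul]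
      exact h2
  · have h1 : Real.sqrt (99 / 100) < 1 := by
      rw [Real.sqrt_lt' one_pos]
      norm_num
    nlinarith
  · rintro ⟨i, s⟩ z ⟨hz, hzi⟩ w ⟨hw, hwi⟩
    obtain ⟨σ, hσ, hσ2⟩ : ∃ σ : ℝ, σ = (if s then (1 : ℝ) else -1) ∧ σ ^ 2 = 1 := by
      refine ⟨_, rfl, ?_⟩
      cases s <;> norm_num
    simp only [← hσ] at hzi hwi
    have hz2 : ‖z‖ ^ 2 ≤ 31 / 100 * D ^ 2 := (pow_le_pow_left₀ (norm_nonneg _) hz 2).trans hr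
    have hw2 : ‖w‖ ^ 2 ≤ 31 / 100 * D ^ 2 := (pow_le_pow_left₀ (norm_nonneg _) hw 2).trans hr
    rw [norm_sq_four] at hz2 hw2
    have hDi : 0 < D⁻¹ := inv_pos.2 hD
    have hDD : D⁻¹ * D = 1 := inv_mul_cancel₀ hD.ne'
    have hsc : ∀ x y : ℝ, |x| ≤ y → |D⁻¹ * x| ≤ D⁻¹ * y := by
      intro x y h
      rw [abs_mul, abs_of_pos hDi]
      exact mul_le_mul_of_nonneg_left h hDi.le
    have key : (D⁻¹ * z 0 - D⁻¹ * w 0) ^ 2 + (D⁻¹ * z 1 - D⁻¹ * w 1) ^ 2 +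
        (D⁻¹ * z 2 - D⁻¹ * w 2) ^ 2 + (D⁻¹ * z 3 - D⁻¹ * w 3) ^ 2 ≤ 99 / 100 := by
      have n1 : (D⁻¹ * z 0) ^ 2 + (D⁻¹ * z 1) ^ 2 + (D⁻¹ * z 2) ^ 2 + (D⁻¹ * z 3) ^ 2 ≤
          31 / 100 := by
        have : (D⁻¹ * z 0) ^ 2 + (D⁻¹ * z 1) ^ 2 + (D⁻¹ * z 2) ^ 2 + (D⁻¹ * z 3) ^ 2 =
            D⁻¹ ^ 2 * (z 0 ^ 2 + z 1 ^ 2 + z 2 ^ 2 + z 3 ^ 2) := by ring
        rw [this]
        calc D⁻¹ ^ 2 * (z 0 ^ 2 + z 1 ^ 2 + z 2 ^ 2 + z 3 ^ 2) ≤ D⁻¹ ^ 2 * (31 / 100 * D ^ 2) :=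
              mul_le_mul_of_nonneg_left hz2 (by positivity)
          _ = 31 / 100 * (D⁻¹ * D) ^ 2 := by ring
          _ = 31 / 100 := by rw [hDD]; norm_num
      have n2 : (D⁻¹ * w 0) ^ 2 + (D⁻¹ * w 1) ^ 2 + (D⁻¹ * w 2) ^ 2 + (D⁻¹ * w 3) ^ 2 ≤
          31 / 100 := by
        have : (D⁻¹ * w 0) ^ 2 + (D⁻¹ * w 1) ^ 2 + (D⁻¹ * w 2) ^ 2 + (D⁻¹ * w 3) ^ 2 =
            D⁻¹ ^ 2 * (w 0 ^ 2 + w 1 ^ 2 + w 2 ^ 2 + w 3 ^ 2) := by ring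
        rw [this]
        calc D⁻¹ ^ 2 * (w 0 ^ 2 + w 1 ^ 2 + w 2 ^ 2 + w 3 ^ 2) ≤ D⁻¹ ^ 2 * (31 / 100 * D ^ 2) :=
              mul_le_mul_of_nonneg_left hw2 (by positivity)
          _ = 31 / 100 * (D⁻¹ * D) ^ 2 := by ring
          _ = 31 / 100 := by rw [hDD]; norm_num
      have q : ∀ x : ℝ, (D⁻¹ * (σ * x)) ^ 2 = (D⁻¹ * x) ^ 2 := by
        intro x
        have : (D⁻¹ * (σ * x)) ^ 2 = σ ^ 2 * (D⁻¹ * x) ^ 2 := by ring
        rw [this, hσ2, one_mul]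
      have q2 : ∀ x y : ℝ, (D⁻¹ * (σ * x) - D⁻¹ * (σ * y)) ^ 2 = (D⁻¹ * x - D⁻¹ * y) ^ 2 := by
        intro x y
        have : (D⁻¹ * (σ * x) - D⁻¹ * (σ * y)) ^ 2 = σ ^ 2 * (D⁻¹ * x - D⁻¹ * y) ^ 2 := by ring
        rw [this, hσ2, one_mul]
      have tz := fun j => hsc _ _ (hzi j)
      have tw := fun j => hsc _ _ (hwi j)
      fin_cases i
      · have := tess (s := D⁻¹ * (σ * z 0)) (p := D⁻¹ * z 1) (q := D⁻¹ * z 2) (w := D⁻¹ * z 3)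
          (s' := D⁻¹ * (σ * w 0)) (p' := D⁻¹ * w 1) (q' := D⁻¹ * w 2) (w' := D⁻¹ * w 3)
          (Q := 31 / 100) le_rfl (by rw [q]; linarith) (by rw [q]; linarith)
          (tz 1) (tz 2) (tz 3) (tw 1) (tw 2) (tw 3)
        rw [q2] at this
        linarith
      · have := tess (s := D⁻¹ * (σ * z 1)) (p := D⁻¹ * z 0) (q := D⁻¹ * z 2) (w := D⁻¹ * z 3)
          (s' := D⁻¹ * (σ * w 1)) (p' := D⁻¹ * w 0) (q' := D⁻¹ * w 2) (w' := D⁻¹ * w 3)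
          (Q := 31 / 100) le_rfl (by rw [q]; linarith) (by rw [q]; linarith)
          (tz 0) (tz 2) (tz 3) (tw 0) (tw 2) (tw 3)
        rw [q2] at this
        linarith
      · have := tess (s := D⁻¹ * (σ * z 2)) (p := D⁻¹ * z 0) (q := D⁻¹ * z 1) (w := D⁻¹ * z 3)
          (s' := D⁻¹ * (σ * w 2)) (p' := D⁻¹ * w 0) (q' := D⁻¹ * w 1) (w' := D⁻¹ * w 3)
          (Q := 31 / 100) le_rfl (by rw [q]; linarith) (by rw [q]; linarith)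
          (tz 0) (tz 1) (tz 3) (tw 0) (tw 1) (tw 3)
        rw [q2] at this
        linarith
      · have := tess (s := D⁻¹ * (σ * z 3)) (p := D⁻¹ * z 0) (q := D⁻¹ * z 1) (w := D⁻¹ * z 2)
          (s' := D⁻¹ * (σ * w 3)) (p' := D⁻¹ * w 0) (q' := D⁻¹ * w 1) (w' := D⁻¹ * w 2)
          (Q := 31 / 100) le_rfl (by rw [q]; linarith) (by rw [q]; linarith)
          (tz 0) (tz 1) (tz 2) (tw 0) (tw 1) (tw 2)
        rw [q2] at this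
        linarith
    have h1 : (D⁻¹ * dist z w) ^ 2 ≤ 99 / 100 := by
      rw [dist_eq_norm, mul_pow, norm_sq_four]
      have : D⁻¹ ^ 2 * ((z - w) 0 ^ 2 + (z - w) 1 ^ 2 + (z - w) 2 ^ 2 + (z - w) 3 ^ 2) =
          (D⁻¹ * z 0 - D⁻¹ * w 0) ^ 2 + (D⁻¹ * z 1 - D⁻¹ * w 1) ^ 2 +
          (D⁻¹ * z 2 - D⁻¹ * w 2) ^ 2 + (D⁻¹ * z 3 - D⁻¹ * w 3) ^ 2 := by
        simp only [PiLp.sub_apply]
        ring
      rw [this]
      exact key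
    have h2 : D⁻¹ * dist z w ≤ Real.sqrt (99 / 100) := Real.le_sqrt_of_sq_le h1
    calc dist z w = (D⁻¹ * dist z w) * D := by field_simp
      _ ≤ Real.sqrt (99 / 100) * D := mul_le_mul_of_nonneg_right h2 hD.le

end Vale.Agent.P052.H846
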