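import Vale.Agent.P052.H846.Cells7
import Vale.Agent.P052.H846.Contact

/-!
P052: every bounded set of `ℝ⁴` is a union of seven sets of smaller diameter.
-/

namespace Vale.Agent.P052.H846

open Metric Set
open scoped RealInnerProductSpace

theorem card7 : Fintype.card ((Bool × Bool) ⊕ Fin 3) = 7 := by simp

/-- Cells on the normalised vectors give a cover. -/
theorem cover_of {X : Set E4} (hD : 0 < Metric.diam X) (c : E4)
    (C : (Bool × Bool) ⊕ Fin 3 → E4 → Prop) {δ : ℝ} (hδ : 0 < δ)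
    (hC : ∀ x ∈ X, ∃ i, C i ((Metric.diam X)⁻¹ • (x - c)))
    (hCd : ∀ i z w, C i z → C i w → ‖z - w‖ ^ 2 ≤ 1 - δ) : IsSmallerCover X 7 := by
  set D := Metric.diam X with hDdef
  have hDi : 0 < D⁻¹ := inv_pos.2 hD
  refine H768.smallerCover_of (ι := (Bool × Bool) ⊕ Fin 3) hD c (by simp)
    (fun i => {z | C i (D⁻¹ • z)}) ?_ (D' := Real.sqrt (1 - δ) * D) ?_ ?_
  · intro x hx
    exact hC x hx
  · have h1 : Real.sqrt (1 - δ) < 1 := by
      rw [Real.sqrt_lt' one_pos]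
      linarith
    nlinarith
  · rintro i z hz w hw
    have h1 := hCd i _ _ hz hw
    rw [← smul_sub, norm_smul, Real.norm_eq_abs, abs_of_pos hDi, ← dist_eq_norm] at h1
    have h2 : D⁻¹ * dist z w ≤ Real.sqrt (1 - δ) := Real.le_sqrt_of_sq_le h1
    calc dist z w = (D⁻¹ * dist z w) * D := by field_simp
      _ ≤ Real.sqrt (1 - δ) * D := mul_le_mul_of_nonneg_right h2 hD.le

/-- Small circumradius. -/
theorem small7 {X : Set E4} (hD : 0 < Metric.diam X) {c : E4} {r : ℝ}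
    (hc : ∀ x ∈ X, ‖x - c‖ ≤ r) (hr : r ^ 2 ≤ 31 / 100 * Metric.diam X ^ 2) :
    IsSmallerCover X 7 := by
  set D := Metric.diam X with hDdef
  have hDi : 0 < D⁻¹ := inv_pos.2 hD
  have hDD : D⁻¹ * D = 1 := inv_mul_cancel₀ hD.ne'
  have hDD2 : D⁻¹ ^ 2 * D ^ 2 = 1 := by rw [← mul_pow, hDD, one_pow]
  refine cover_of hD c (fun i z => ‖z‖ ^ 2 ≤ 31 / 100 ∧ C0 i (fun j => z j)) (δ := 1 / 200)
    (by norm_num) ?_ ?_
  · intro x hx
    obtain ⟨i, hi⟩ := C0_cover (fun j => (D⁻¹ • (x - c) : E4) j)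
    refine ⟨i, ?_, hi⟩
    rw [norm_smul, Real.norm_eq_abs, abs_of_pos hDi, mul_pow]
    have h1 := mul_le_mul_of_nonneg_left ((pow_le_pow_left₀ (norm_nonneg _) (hc x hx) 2).trans hr)
      (sq_nonneg D⁻¹)
    nlinarith
  · rintro i z w ⟨hz, hzi⟩ ⟨hw, hwi⟩
    have h1 := C0_pair (y := fun j => z j) (z := fun j => w j)
      (by rw [norm_sq_four] at hz; exact hz) (by rw [norm_sq_four] at hw; exact hw) hzi hwi
    rw [norm_sq_four]
    simp only [PiLp.sub_apply]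
    exact h1

/-- A contact point in any closed half space. -/
theorem exists_nonpos {P : Set E4} (hP : IsCompact P) (hne : P.Nonempty)
    (h0 : (0 : E4) ∈ closure (convexHull ℝ P)) (v : E4) : ∃ e ∈ P, ⟪v, e⟫ ≤ 0 := by
  obtain ⟨e, he, hmin⟩ := hP.exists_isMinOn hne
    ((by fun_prop : Continuous fun p : E4 => ⟪v, p⟫).continuousOn)
  refine ⟨e, he, ?_⟩
  by_contra hcon
  push Not at hcon
  have h1 : closure (convexHull ℝ P) ⊆ {x : E4 | ⟪v, e⟫ ≤ ⟪v, x⟫} := by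
    apply closure_minimal
    · apply convexHull_min
      · intro x hx
        exact hmin hx
      · intro x hx y hy a b ha hb hab
        simp only [mem_ofPred_eq] at hx hy ⊢
        rw [inner_add_right, real_inner_smul_right, real_inner_smul_right]
        have e1 : a * ⟪v, e⟫ + b * ⟪v, e⟫ = ⟪v, e⟫ := by rw [← add_mul, hab, one_mul]
        have e2 := mul_le_mul_of_nonneg_left hx ha
        have e3 := mul_le_mul_of_nonneg_left hy hb
        linarith
    · exact isClosed_le continuous_const (by fun_prop)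
  have h2 := h1 h0
  simp only [mem_ofPred_eq, inner_zero_right] at h2
  linarith

/-- Extension of an orthonormal pair. -/
theorem exists_basis {a0 a1 : E4} (i00 : ⟪a0, a0⟫ = 1) (i11 : ⟪a1, a1⟫ = 1) (i01 : ⟪a0, a1⟫ = 0) :
    ∃ b : OrthonormalBasis (Fin 4) ℝ E4, b 0 = a0 ∧ b 1 = a1 := by
  let v : Fin 4 → E4 := ![a0, a1, 0, 0]
  have i10 : ⟪a1, a0⟫ = 0 := by rw [real_inner_comm]; exact i01
  have hv : Orthonormal ℝ (({0, 1} : Set (Fin 4)).domRestrict v) := by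
    rw [orthonormal_iff_ite]
    rintro ⟨i, hi⟩ ⟨j, hj⟩
    show ⟪v i, v j⟫ = _
    simp only [mem_insert_iff, mem_singleton_iff] at hi hj
    rcases hi with rfl | rfl <;> rcases hj with rfl | rfl
    · rw [if_pos rfl]
      exact i00
    · rw [if_neg (by simp)]
      exact i01
    · rw [if_neg (by simp)]
      exact i10
    · rw [if_pos rfl]
      exact i11
  obtain ⟨b, hb⟩ := hv.exists_orthonormalBasis_extension_of_card_eq (by simp)
  refine ⟨b, ?_, ?_⟩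
  · have := hb 0 (by simp)
    simpa [v] using this
  · have := hb 1 (by simp)
    simpa [v] using this

theorem nn_coords (b : OrthonormalBasis (Fin 4) ℝ E4) (z : E4) :
    nn (fun i => ⟪b i, z⟫) = ‖z‖ ^ 2 := by
  rw [← b.repr.norm_map z, norm_sq_four]
  simp only [b.repr_apply_apply]
  rfl

theorem dd_coords (b : OrthonormalBasis (Fin 4) ℝ E4) (z w : E4) :
    dd (fun i => ⟪b i, z⟫) (fun i => ⟪b i, w⟫) = ‖z - w‖ ^ 2 := by
  rw [← nn_coords b (z - w)]
  unfold dd nn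
  simp only [inner_sub_right]

/-- The far case: contact points at distance `1` and a third contact point. -/
theorem far7 {X : Set E4} (hD : 0 < Metric.diam X) (c : E4) {M Q : ℝ} (hM0 : 0 < M)
    (hQ : Q = M ^ 2 + (1 / 2) ^ 2) (h34 : 34 / 100 ≤ Q) (h39 : Q ≤ 39 / 100)
    (b : OrthonormalBasis (Fin 4) ℝ E4)
    (hadm : ∀ x ∈ X, Adm M (1 / 2) Q (fun i => ⟪b i, (Metric.diam X)⁻¹ • (x - c)⟫))
    {p3 : E4} (hp3 : ‖p3‖ ^ 2 = Q) (ha3 : ⟪b 0, p3⟫ ≤ 0) (hMa : Q - 1 / 2 ≤ M * ⟪b 0, p3⟫)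
    (h3 : ∀ x ∈ X, ‖(Metric.diam X)⁻¹ • (x - c) - p3‖ ^ 2 ≤ 1) : IsSmallerCover X 7 := by
  set D := Metric.diam X with hDdef
  have hMsq : M ^ 2 = Q - 1 / 4 := by rw [hQ]; ring
  obtain ⟨s, hs⟩ : ∃ s, s = -⟪b 0, p3⟫ := ⟨_, rfl⟩
  have hs0 : 0 ≤ s := by linarith
  have hMs : M * s ≤ 1 / 2 - Q := by rw [hs]; linarith
  set h : ℝ := Real.sqrt (M ^ 2 - 2 / 1000) with hh
  have hhsq : h ^ 2 = M ^ 2 - 2 / 1000 := Real.sq_sqrt (by linarith)
  have hh0 : 0 ≤ h := Real.sqrt_nonneg _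
  have hhM : h < M := by
    apply lt_of_pow_lt_pow_left₀ 2 hM0.le
    rw [hhsq]
    linarith
  have i00 : ⟪b 0, b 0⟫ = 1 := by
    rw [real_inner_self_eq_norm_sq, b.orthonormal.1 0, one_pow]
  set y3 : E4 := p3 + s • b 0 with hy3
  have hy0 : ⟪b 0, y3⟫ = 0 := by
    rw [hy3, inner_add_right, real_inner_smul_right, i00, hs]
    ring
  set c3 : ℝ := ‖y3‖ with hc3
  have hc30 : 0 ≤ c3 := norm_nonneg _
  have hsc : s ^ 2 + c3 ^ 2 = Q := by
    have e1 : ⟪y3, y3⟫ = Q - s ^ 2 := by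
      have e2 : ⟪y3, y3⟫ = ⟪p3, y3⟫ + s * ⟪b 0, y3⟫ := by
        conv_lhs => rw [hy3, inner_add_left, real_inner_smul_left]
      rw [e2, hy0, hy3, inner_add_right, real_inner_smul_right, real_inner_self_eq_norm_sq, hp3,
        real_inner_comm, hs]
      ring
    rw [hc3, ← real_inner_self_eq_norm_sq, e1]
    ring
  have hc3pos : 0 < c3 := by
    rcases hc30.lt_or_eq with h1 | h1
    · exact h1
    · exfalso
      rw [← h1] at hsc
      have g2 : (M * s) ^ 2 ≤ (1 / 2 - Q) ^ 2 := pow_le_pow_left₀ (mul_nonneg hM0.le hs0) hMs 2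
      rw [mul_pow, hMsq, show s ^ 2 = Q by linarith] at g2
      nlinarith
  obtain ⟨b', hb0, hb1⟩ := exists_basis (a0 := b 0) (a1 := c3⁻¹ • y3) i00
    (by rw [real_inner_smul_left, real_inner_smul_right, real_inner_self_eq_norm_sq, ← hc3]
        field_simp)
    (by rw [real_inner_smul_right, hy0, mul_zero])
  have hp3' : p3 = -s • b' 0 + c3 • b' 1 := by
    rw [hb0, hb1, smul_smul, mul_inv_cancel₀ hc3pos.ne', one_smul, hy3]
    module
  obtain ⟨δ, hδ, hback⟩ := back_quad hM0 hQ (by linarith) h39 hhM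
  refine cover_of hD c (δ := min δ (4 / 1000)) (fun i z => match i with
    | Sum.inl s => Adm M (1 / 2) Q (fun i => ⟪b i, z⟫) ∧ ⟪b 0, z⟫ ≤ h ∧ Quad s (fun i => ⟪b i, z⟫)
    | Sum.inr j => ‖z‖ ^ 2 ≤ Q ∧ h ≤ ⟪b' 0, z⟫ ∧ -(9 / 20) ≤ ⟪b' 1, z⟫ ∧
        Lune j (fun i => ⟪b' i, z⟫)) (lt_min hδ (by norm_num)) ?_ ?_
  · intro x hx
    have hax := hadm x hx
    have h3x := h3 x hx
    set z : E4 := D⁻¹ • (x - c) with hz
    rcases le_total ⟪b 0, z⟫ h with h1 | h1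
    · obtain ⟨s', hs'⟩ := exists_quad (fun i => ⟪b i, z⟫)
      exact ⟨Sum.inl s', hax, h1, hs'⟩
    · obtain ⟨j, hj⟩ := exists_lune (fun i => ⟪b' i, z⟫)
      have hn : ‖z‖ ^ 2 ≤ Q := by
        have := hax.1
        rwa [nn_coords] at this
      refine ⟨Sum.inr j, hn, by rw [hb0]; exact h1, ?_, hj⟩
      have e1 : ⟪z, p3⟫ = -s * ⟪b' 0, z⟫ + c3 * ⟪b' 1, z⟫ := by
        rw [hp3', inner_add_right, real_inner_smul_right, real_inner_smul_right,
          real_inner_comm (b' 0), real_inner_comm (b' 1)]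
      rw [norm_sub_sq_real, hp3, e1] at h3x
      have e2 := nn_coords b' z
      unfold nn at e2
      dsimp only at e2
      refine third_point (a := ⟪b' 0, z⟫) (b := ⟪b' 1, z⟫) (n := ‖z‖ ^ 2) h34 hM0 hMsq hhsq hh0 hs0
        hc30 hsc hMs ?_ (by rw [hb0]; exact h1) (by linarith)
      nlinarith [sq_nonneg ⟪b' 2, z⟫, sq_nonneg ⟪b' 3, z⟫]
  · rintro (s' | j) z w hz hw
    · obtain ⟨z1, z2, z3⟩ := hz
      obtain ⟨w1, w2, w3⟩ := hw
      have := hback s' _ _ z1 w1 z2 w2 z3 w3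
      rw [dd_coords] at this
      have h5 := min_le_left δ (4 / 1000)
      linarith
    · obtain ⟨z1, z2, z3, z4⟩ := hz
      obtain ⟨w1, w2, w3, w4⟩ := hw
      have := lune_pair (Q := Q) (h := h) hh0 (by rw [hhsq, hMsq]; linarith)
        (y := fun i => ⟪b' i, z⟫) (z := fun i => ⟪b' i, w⟫) (by rw [nn_coords]; exact z1)
        (by rw [nn_coords]; exact w1) z2 w2 z3 w3 z4 w4
      rw [dd_coords] at this
      have h5 := min_le_right δ (4 / 1000)
      linarith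

/-- The case of contact points. -/
theorem contact7 {X : Set E4} (hD : 0 < Metric.diam X) {c e e' : E4}
    {r : ℝ} (hc : ∀ x ∈ X, ‖x - c‖ ≤ r)
    (hr1 : 31 / 100 * Metric.diam X ^ 2 ≤ r ^ 2) (hr2 : r ^ 2 ≤ 39 / 100 * Metric.diam X ^ 2)
    (he : ∀ x ∈ X, ‖(x - c) - e‖ ≤ Metric.diam X) (he' : ∀ x ∈ X, ‖(x - c) - e'‖ ≤ Metric.diam X)
    (hee' : ‖e - e'‖ ≤ Metric.diam X)
    (her : ‖e‖ = r) (her' : ‖e'‖ = r) (hi : ⟪e, e'⟫ ≤ -(r ^ 2) / 4)
    (hthird : ∃ e3 : E4, ‖e3‖ = r ∧ (∀ x ∈ X, ‖(x - c) - e3‖ ≤ Metric.diam X) ∧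
      ‖e - e3‖ ≤ Metric.diam X ∧ ‖e' - e3‖ ≤ Metric.diam X ∧ ⟪e + e', e3⟫ ≤ 0) :
    IsSmallerCover X 7 := by
  set D := Metric.diam X with hDdef
  have hDi : 0 < D⁻¹ := inv_pos.2 hD
  have hDD : D⁻¹ * D = 1 := inv_mul_cancel₀ hD.ne'
  have hDD2 : D⁻¹ ^ 2 * D ^ 2 = 1 := by rw [← mul_pow, hDD, one_pow]
  set p1 : E4 := D⁻¹ • e with hp1
  set p2 : E4 := D⁻¹ • e' with hp2
  set Q : ℝ := D⁻¹ ^ 2 * r ^ 2 with hQ
  set g : ℝ := ⟪p1, p2⟫ with hg
  have hn : ∀ z : E4, ‖D⁻¹ • z‖ ^ 2 = D⁻¹ ^ 2 * ‖z‖ ^ 2 := by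
    intro z
    rw [norm_smul, Real.norm_eq_abs, abs_of_pos hDi, mul_pow]
  have hn1 : ∀ z : E4, ‖z‖ ≤ D → ‖D⁻¹ • z‖ ^ 2 ≤ 1 := by
    intro z hz
    rw [hn]
    have := mul_le_mul_of_nonneg_left (pow_le_pow_left₀ (norm_nonneg _) hz 2) (sq_nonneg D⁻¹)
    linarith
  have n1 : ‖p1‖ ^ 2 = Q := by rw [hp1, hn, her]
  have n2 : ‖p2‖ ^ 2 = Q := by rw [hp2, hn, her']
  have hge : g = D⁻¹ ^ 2 * ⟪e, e'⟫ := by
    rw [hg, hp1, hp2, real_inner_smul_left, real_inner_smul_right]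
    ring
  have hQ31 : 31 / 100 ≤ Q := by
    have := mul_le_mul_of_nonneg_left hr1 (sq_nonneg D⁻¹)
    nlinarith
  have hQ39 : Q ≤ 39 / 100 := by
    have := mul_le_mul_of_nonneg_left hr2 (sq_nonneg D⁻¹)
    nlinarith
  have hg4 : g ≤ -Q / 4 := by
    have := mul_le_mul_of_nonneg_left hi (sq_nonneg D⁻¹)
    rw [hge, hQ]
    linarith
  have hgQ : 2 * Q - 2 * g ≤ 1 := by
    have h1 : ‖p1 - p2‖ ^ 2 ≤ 1 := by
      rw [hp1, hp2, ← smul_sub]
      exact hn1 _ hee'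
    rw [norm_sub_sq_real, n1, n2, ← hg] at h1
    linarith
  set M : ℝ := Real.sqrt ((Q + g) / 2) with hM
  set S : ℝ := Real.sqrt ((Q - g) / 2) with hS
  have hMsq : M ^ 2 = (Q + g) / 2 := Real.sq_sqrt (by linarith)
  have hSsq : S ^ 2 = (Q - g) / 2 := Real.sq_sqrt (by linarith)
  have hM0 : 0 < M := Real.sqrt_pos.2 (by linarith)
  have hS0 : 0 < S := Real.sqrt_pos.2 (by linarith)
  have hS2 : S ≤ 1 / 2 := by
    apply Real.sqrt_le_iff.2
    constructor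
    · norm_num
    · linarith
  have hQMS : Q = M ^ 2 + S ^ 2 := by rw [hMsq, hSsq]; ring
  have hS5 : 5 / 8 * Q ≤ S ^ 2 := by rw [hSsq]; linarith
  obtain ⟨b, hb1, hb2⟩ := exists_coords n1 n2 hg.symm hM0 hS0 (by rw [hMsq]; ring)
    (by rw [hSsq]; ring)
  have hadm : ∀ x ∈ X, Adm M S Q (fun i => ⟪b i, D⁻¹ • (x - c)⟫) := by
    intro x hx
    have f0 : ‖D⁻¹ • (x - c)‖ ^ 2 ≤ Q := by
      rw [hn]
      exact mul_le_mul_of_nonneg_left (pow_le_pow_left₀ (norm_nonneg _) (hc x hx) 2)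
        (sq_nonneg _)
    have f1 : ‖D⁻¹ • (x - c) - p1‖ ^ 2 ≤ 1 := by
      rw [hp1, ← smul_sub]
      exact hn1 _ (he x hx)
    have f2 : ‖D⁻¹ • (x - c) - p2‖ ^ 2 ≤ 1 := by
      rw [hp2, ← smul_sub]
      exact hn1 _ (he' x hx)
    rw [norm_sub_sq_real, n1] at f1
    rw [norm_sub_sq_real, n2] at f2
    set z : E4 := D⁻¹ • (x - c) with hz
    have g1 : ⟪z, p1⟫ = M * ⟪b 0, z⟫ - S * ⟪b 1, z⟫ := by
      rw [hb1, inner_sub_right, real_inner_smul_right, real_inner_smul_right,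
        real_inner_comm (b 0), real_inner_comm (b 1)]
    have g2 : ⟪z, p2⟫ = M * ⟪b 0, z⟫ + S * ⟪b 1, z⟫ := by
      rw [hb2, inner_add_right, real_inner_smul_right, real_inner_smul_right,
        real_inner_comm (b 0), real_inner_comm (b 1)]
    rw [g1] at f1
    rw [g2] at f2
    unfold Adm
    rw [nn_coords]
    refine ⟨f0, ?_⟩
    rcases abs_cases ⟪b 1, z⟫ with ⟨h, _⟩ | ⟨h, _⟩
    · rw [h]; linarith
    · rw [h]; linarith
  rcases hS2.lt_or_eq with hlt | heq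
  · -- the contact points are nearer than `1`
    obtain ⟨δ, hδ, h, t, hCd⟩ := cells1' hM0 hS0 hlt hQMS hQ31 hQ39 hS5
    let f : (Bool × Bool) ⊕ Fin 3 → (Bool × Bool) ⊕ Fin 4 := Sum.map id Fin.castSucc
    refine cover_of hD c (δ := δ) (fun i z => Adm M S Q (fun i => ⟪b i, z⟫) ∧
      C1 h t (f i) (fun i => ⟪b i, z⟫)) hδ ?_ ?_
    · intro x hx
      obtain ⟨i, hi⟩ := C1_cover h t (fun i => ⟪b i, D⁻¹ • (x - c)⟫)
      rcases i with s | i
      · exact ⟨Sum.inl s, hadm x hx, hi⟩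
      · fin_cases i
        · exact ⟨Sum.inr 0, hadm x hx, hi⟩
        · exact ⟨Sum.inr 1, hadm x hx, hi⟩
        · exact ⟨Sum.inr 2, hadm x hx, hi⟩
        · exact hi.elim
    · rintro i z w ⟨hz1, hz2⟩ ⟨hw1, hw2⟩
      have := hCd _ _ _ hz1 hw1 hz2 hw2
      rwa [dd_coords] at this
  · rw [heq] at hadm hQMS hb1 hb2
    rcases le_total Q (34 / 100) with h34 | h34
    · refine cover_of hD c (δ := 1 / 200) (fun i z => Adm M (1 / 2) Q (fun i => ⟪b i, z⟫) ∧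
        C3 (51 / 50 * M) i (fun i => ⟪b i, z⟫)) (by norm_num) ?_ ?_
      · intro x hx
        obtain ⟨i, hi⟩ := C3_cover (51 / 50 * M) (fun i => ⟪b i, D⁻¹ • (x - c)⟫)
        exact ⟨i, hadm x hx, hi⟩
      · rintro i z w ⟨hz1, hz2⟩ ⟨hw1, hw2⟩
        have := C3_pair hM0 hQMS hQ31 h34 hz1 hw1 hz2 hw2
        rwa [dd_coords] at this
    · obtain ⟨e3, h3r, h3X, h31, h32, h3n⟩ := hthird
      have hsum : p1 + p2 = (2 * M) • b 0 := by
        rw [hb1, hb2]
        module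
      have hin : ⟪(2 * M) • b 0, D⁻¹ • e3⟫ ≤ 0 := by
        rw [← hsum, hp1, hp2, ← smul_add, real_inner_smul_left, real_inner_smul_right]
        have := mul_nonpos_of_nonneg_of_nonpos (mul_nonneg hDi.le hDi.le) h3n
        linarith
      have hn3 : ‖D⁻¹ • e3‖ ^ 2 = Q := by rw [hn, h3r]
      refine far7 hD c hM0 hQMS h34 hQ39 b hadm (p3 := D⁻¹ • e3) hn3 ?_ ?_ ?_
      · rw [real_inner_smul_left] at hin
        by_contra hcon
        push Not at hcon
        have := mul_pos (show 0 < 2 * M by linarith) hcon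
        linarith
      · have k1 : ‖p1 - D⁻¹ • e3‖ ^ 2 ≤ 1 := by
          rw [hp1, ← smul_sub]
          exact hn1 _ h31
        have k2 : ‖p2 - D⁻¹ • e3‖ ^ 2 ≤ 1 := by
          rw [hp2, ← smul_sub]
          exact hn1 _ h32
        rw [norm_sub_sq_real, n1, hn3] at k1
        rw [norm_sub_sq_real, n2, hn3] at k2
        have k3 : ⟪p1, D⁻¹ • e3⟫ + ⟪p2, D⁻¹ • e3⟫ = 2 * M * ⟪b 0, D⁻¹ • e3⟫ := by
          rw [← inner_add_left, hsum, real_inner_smul_left]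
        linarith
      · intro x hx
        rw [← smul_sub]
        exact hn1 _ (h3X x hx)

/-- **`b(4) ≤ 7`.** -/
theorem seven {X : Set E4} (hb : Bornology.IsBounded X) (hD : 0 < Metric.diam X) :
    IsSmallerCover X 7 := by
  by_cases hno : ∀ c, ¬ X ⊆ Metric.closedBall c (Real.sqrt (39 / 100) * Metric.diam X)
  · obtain ⟨P, hP, hd⟩ := Vale.Agent.P052.J373.explicit_plain 4 (39 / 100) (Or.inl ⟨rfl, rfl⟩) X hb
      hD hno
    exact mono_cover (m := 5) (by norm_num) hD ⟨P, hP, hd⟩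
  push Not at hno
  obtain ⟨c₀, hc₀⟩ := hno
  set D := Metric.diam X with hDdef
  have hXne : X.Nonempty := by
    rw [nonempty_iff_ne_empty]
    intro h
    rw [hDdef, h, Metric.diam_empty] at hD
    exact lt_irrefl _ hD
  have hKc : IsCompact (closure X) := hb.isCompact_closure
  have hdiam : ∀ x ∈ closure X, ∀ y ∈ closure X, dist x y ≤ D := by
    intro x hx y hy
    rw [hDdef, ← Metric.diam_closure]
    exact Metric.dist_le_diam_of_mem hb.closure hx hy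
  obtain ⟨c, r, hr0, hc, hmin, hhull⟩ := exists_min_ball hKc (hXne.mono subset_closure)
  have hr39 : r ≤ Real.sqrt (39 / 100) * D := by
    apply hmin c₀
    intro x hx
    have h1 : closure X ⊆ closedBall c₀ (Real.sqrt (39 / 100) * D) :=
      closure_minimal hc₀ isClosed_closedBall
    have := h1 hx
    rwa [mem_closedBall, dist_eq_norm] at this
  have hr39' : r ^ 2 ≤ 39 / 100 * D ^ 2 := by
    have h1 := pow_le_pow_left₀ hr0 hr39 2
    rwa [mul_pow, Real.sq_sqrt (by norm_num)] at h1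
  rcases le_or_gt (r ^ 2) (31 / 100 * D ^ 2) with h | h
  · exact small7 hD (fun x hx => hc x (subset_closure hx)) h
  · set P : Set E4 := {e : E4 | ∃ x ∈ closure X, x - c = e ∧ ‖e‖ = r} with hP
    have hPne : P.Nonempty := by
      by_contra hcon
      rw [not_nonempty_iff_eq_empty] at hcon
      rw [hcon, convexHull_empty, closure_empty] at hhull
      exact hhull
    have hPc : IsCompact P := by
      have h1 : P = (fun x => x - c) '' closure X ∩ {e | ‖e‖ = r} := by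
        ext e
        constructor
        · rintro ⟨x, hx, h2, h3⟩
          exact ⟨⟨x, hx, h2⟩, h3⟩
        · rintro ⟨⟨x, hx, h2⟩, h3⟩
          exact ⟨x, hx, h2, h3⟩
      rw [h1]
      exact (hKc.image (by fun_prop)).inter_right (isClosed_eq continuous_norm continuous_const)
    obtain ⟨e, he, e', he', hi⟩ := pair_of_hull (n := 4) (by norm_num) (by simp) hPc hPne
      (fun e he => by obtain ⟨_, _, _, h3⟩ := he; exact h3) hhull
    obtain ⟨e3, he3, hi3⟩ := exists_nonpos hPc hPne hhull (e + e')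
    have hd : ∀ e ∈ P, ∀ x ∈ closure X, ‖(x - c) - e‖ ≤ D := by
      rintro _ ⟨y, hy, rfl, _⟩ x hx
      rw [sub_sub_sub_cancel_right, ← dist_eq_norm]
      exact hdiam _ hx _ hy
    have hd2 : ∀ e ∈ P, ∀ e' ∈ P, ‖e - e'‖ ≤ D := by
      rintro _ ⟨y, hy, rfl, _⟩ e' he'
      exact hd e' he' y hy
    have hr : ∀ e ∈ P, ‖e‖ = r := by
      rintro _ ⟨_, _, _, h3⟩
      exact h3
    exact contact7 (c := c) (r := r) hD (fun y hy => hc y (subset_closure hy)) h.le hr39'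
      (fun y hy => hd e he y (subset_closure hy)) (fun y hy => hd e' he' y (subset_closure hy))
      (hd2 e he e' he') (hr e he) (hr e' he') (by exact_mod_cast hi)
      ⟨e3, hr e3 he3, fun y hy => hd e3 he3 y (subset_closure hy), hd2 e he e3 he3,
        hd2 e' he' e3 he3, hi3⟩

end Vale.Agent.P052.H846
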